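import Vale.Agent.P159.TM.H389.Box
import Vale.Agent.P159.TM.H928.Idwi

/-!
Rows ITTOT / IDWI: the constants of the annuli around a square in the centre of a box, and `IDWI`.
-/

open MeasureTheory Filter Topology
open scoped BigOperators

set_option linter.all false

namespace Vale.Agent.P159.TM.H389

open Vale.Agent.P159 Vale.Agent.P159.TM.H331 Vale.Agent.P159.TM.H928 Vale.Agent.P159.TM.H574

/-- **the constants of the annuli** -/
theorem kann {b : ℝ} (hb : 0 ≤ b) : KANN b := by
  obtain ⟨C, c, hC, hc, h⟩ := annk hb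
  refine ⟨C, c, hC, hc, fun r m hr hm => ?_⟩
  have hr' : (0 : ℝ) < r := by exact_mod_cast (by omega : 0 < r)
  have hpos : 1 ≤ (2 * m + 1) * r := Nat.one_le_iff_ne_zero.2 (by positivity)
  have hmr : r ≤ m * r := Nat.le_mul_of_pos_left r hm
  have h1 : m * r + r + m * r ≤ (2 * m + 1) * r - 1 + 1 := by
    rw [Nat.sub_add_cancel hpos]
    exact le_of_eq (by ring)
  have h2 := h ((2 * m + 1) * r - 1) (m * r) (m * r) r (m * r) (by omega) hmr le_rfl le_rfl h1 h1
  have h3 : ((m * r : ℕ) : ℝ) / r = m := by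
    push_cast
    field_simp
  rw [h3] at h2
  refine ⟨_, ?_, le_rfl, h2⟩
  have h4 : 0 ≤ C * (m : ℝ) ^ (-c) := mul_nonneg hC.le (Real.rpow_nonneg (Nat.cast_nonneg m) _)
  linarith

/-- **IDWI** -/
theorem idwi {b : ℝ} (hb : 0 ≤ b) : IDWI b := Vale.Agent.P159.TM.H928.idwi hb (kann hb)

end Vale.Agent.P159.TM.H389
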