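import Vale.Agent.P159.TM.H389.Wire

/-!
Row RM / ISAND (spin form): the sandwich for influences and ratio mixing, with the constant
`Zww * Zff / (Zwf * Zfw)` of the annulus.
-/

open MeasureTheory Filter Topology
open scoped BigOperators

set_option linter.all false

namespace Vale.Agent.P159.TM.H389

open Vale.Agent.P159 Vale.Agent.P159.T1.H42

variable {V : Type*} [Fintype V]

/-- both sets wired, with free common angles -/
noncomputable def Zww (a : (V → T) → ℝ) (S : Set V) (o : V) (S' : Set V) (o' : V) : ℝ :=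
  ∫ θ, a (fun v => θ (ctr2 S o S' o' v)) ∂(torusHaar V)

lemma relab_cont (c : V → V) : Continuous fun θ : V → T => (fun v => θ (c v) : V → T) :=
  continuous_pi fun v => continuous_apply (c v)

lemma int_mono_ae {f g : (V → T) → ℝ} (hf : Continuous f) (hg : Continuous g)
    (h : ∀ θ, f θ ≤ g θ) : ∫ θ, f θ ∂(torusHaar V) ≤ ∫ θ, g θ ∂(torusHaar V) :=
  integral_mono (cint hf) (cint hg) h

/-- `infl` on spin configurations -/
theorem inflV {w A B C D : C(V → T, ℝ)} (hw : pl w * mi w ∈ (PG (V → T)).S)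
    (h : Lew (PG (V → T)) A B) (h' : Lew (PG (V → T)) C D) :
    (∫ θ, w θ * (A θ * D θ) ∂(torusHaar V)) * (∫ θ, w θ * (B θ * C θ) ∂(torusHaar V)) ≤
      (∫ θ, w θ * (B θ * D θ) ∂(torusHaar V)) * (∫ θ, w θ * (A θ * C θ) ∂(torusHaar V)) :=
  infl pi_div2 (PG_int _) hw h h'

/-- integrals of positive definite functions are nonnegative -/
theorem pos_int {w U : C(V → T, ℝ)} (hw : pl w * mi w ∈ (PG (V → T)).S) (h0 : ∀ θ, 0 < w θ)
    (hU : U ∈ (PG (V → T)).cosS) : 0 ≤ ∫ θ, w θ * U θ ∂(torusHaar V) := by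
  have h1 := PG_int (torusHaar V) _ ((PG (V → T)).S.mul_mem hw hU.1)
  have hc : Continuous (fun p : (V → T) × (V → T) => w p.1 * w p.2 * (U p.1 + U p.2)) := by
    fun_prop
  have hrot := integral_rot (torusHaar V) pi_div2 hc
  have e1 : ∫ p, (pl w * mi w * (pl U + mi U)) p ∂((torusHaar V).prod (torusHaar V)) =
      ∫ p : (V → T) × (V → T), w p.1 * w p.2 * (U p.1 + U p.2)
        ∂((torusHaar V).prod (torusHaar V)) := by
    rw [← hrot]
    rfl
  rw [e1] at h1
  have e2 : ∀ p : (V → T) × (V → T), w p.1 * w p.2 * (U p.1 + U p.2) =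
      (w p.1 * U p.1) * w p.2 + w p.1 * (w p.2 * U p.2) := by
    intro p; ring
  simp_rw [e2] at h1
  have i : ∀ {f g : (V → T) → ℝ}, Continuous f → Continuous g →
      Integrable (fun p : (V → T) × (V → T) => f p.1 * g p.2)
        ((torusHaar V).prod (torusHaar V)) := fun hf hg =>
    cint ((hf.comp continuous_fst).mul (hg.comp continuous_snd))
  have cw : Continuous (fun x => w x) := w.continuous
  have cU : Continuous (fun x => w x * U x) := by fun_prop
  rw [integral_add (i cU cw) (i cw cU),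
    integral_prod_mul (fun x => w x * U x) (fun x => w x),
    integral_prod_mul (fun x => w x) (fun x => w x * U x)] at h1
  have p0 : 0 < ∫ θ, w θ ∂(torusHaar V) :=
    int_pos_of_pos w.continuous (fun θ => (h0 θ).le) (x := 0) (h0 0).ne'
  have h2 : 0 ≤ (∫ θ, w θ ∂(torusHaar V)) * ∫ θ, w θ * U θ ∂(torusHaar V) := by linarith
  exact nonneg_of_mul_nonneg_right h2 p0

lemma fact {B X : (V → T) → ℝ} (hB : Continuous B) (hX : Continuous X) {P N S : Set V}
    (hBP : Dep P B) (hXN : Dep N X) (h : P ∩ N ⊆ S) :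
    ∫ θ, B (pin S 0 θ) * X (pin S 0 θ) ∂(torusHaar V) =
      (∫ θ, B (pin S 0 θ) ∂(torusHaar V)) * ∫ θ, X (pin S 0 θ) ∂(torusHaar V) := by
  refine indep (S := P \ S) (hB.comp (pin_cont S 0)) (hX.comp (pin_cont S 0)) ?_ ?_
  · intro θ θ' h1
    refine hBP _ _ fun v hv => ?_
    by_cases hS : v ∈ S
    · rw [pin_mem hS, pin_mem hS]
    · rw [pin_notMem hS, pin_notMem hS]
      exact h1 v ⟨hv, hS⟩
  · intro θ θ' h1
    refine hXN _ _ fun v hv => ?_
    by_cases hS : v ∈ S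
    · rw [pin_mem hS, pin_mem hS]
    · rw [pin_notMem hS, pin_notMem hS]
      exact h1 v fun h2 => hS (h ⟨h2.1, hv⟩)

lemma fact2 {B X : (V → T) → ℝ} (hB : Continuous B) (hX : Continuous X) (hBi : Inv B)
    (hXi : Inv X) {P N S S' : Set V} (hBP : Dep P B) (hXN : Dep N X) (h : P ∩ N ⊆ S)
    (hPS' : Disjoint P S') (hd : Disjoint S S') {o o' : V} (ho : o ∈ S) (ho' : o' ∈ S') :
    ∫ θ, B (fun v => θ (ctr2 S o S' o' v)) * X (fun v => θ (ctr2 S o S' o' v)) ∂(torusHaar V) =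
      (∫ θ, B (pin S 0 θ) ∂(torusHaar V)) * Zww X S o S' o' := by
  have hcB : Continuous fun θ : V → T => B (fun v => pin {o} 0 θ (ctr2 S o S' o' v)) :=
    hB.comp ((relab_cont _).comp (pin_cont {o} 0))
  have hcX : Continuous fun θ : V → T => X (fun v => pin {o} 0 θ (ctr2 S o S' o' v)) :=
    hX.comp ((relab_cont _).comp (pin_cont {o} 0))
  have hoo : o' ≠ o := fun h1 => Set.disjoint_left.1 hd ho (h1 ▸ ho')
  have e1 := int_inv (f := fun θ => B θ * X θ) (hB.mul hX) (hBi.mul hXi) (ctr2 S o S' o') o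
  rw [e1]
  have e2 : ∀ θ : V → T, B (fun v => pin {o} 0 θ (ctr2 S o S' o' v)) = B (pin S 0 θ) := by
    intro θ
    refine hBP _ _ fun v hv => ?_
    have hv' : v ∉ S' := fun h1 => Set.disjoint_left.1 hPS' hv h1
    by_cases hS : v ∈ S
    · show pin {o} 0 θ (ctr2 S o S' o' v) = _
      rw [ctr2_left hd hS, pin_mem (by simp), pin_mem hS]
      rfl
    · show pin {o} 0 θ (ctr2 S o S' o' v) = _
      rw [ctr2_off hS hv', pin_notMem (by
        simp only [Set.mem_singleton_iff]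
        exact fun h1 => hS (h1 ▸ ho)), pin_notMem hS]
  unfold Zww
  rw [int_inv (f := X) hX hXi (ctr2 S o S' o') o]
  have e3 : ∀ θ : V → T, B (fun v => pin {o} 0 θ (ctr2 S o S' o' v)) *
      X (fun v => pin {o} 0 θ (ctr2 S o S' o' v)) =
      B (pin S 0 θ) * X (fun v => pin {o} 0 θ (ctr2 S o S' o' v)) := fun θ => by rw [e2]
  simp_rw [e3]
  refine indep (S := P \ S) (hB.comp (pin_cont S 0)) hcX ?_ ?_
  · intro θ θ' h1
    refine hBP _ _ fun v hv => ?_
    by_cases hS : v ∈ S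
    · rw [pin_mem hS, pin_mem hS]
    · rw [pin_notMem hS, pin_notMem hS]
      exact h1 v ⟨hv, hS⟩
  · intro θ θ' h1
    refine hXN _ _ fun v hv => ?_
    show pin {o} 0 θ (ctr2 S o S' o' v) = pin {o} 0 θ' (ctr2 S o S' o' v)
    by_cases hS : v ∈ S
    · rw [ctr2_left hd hS, pin_mem (by simp), pin_mem (by simp)]
    · by_cases hS' : v ∈ S'
      · rw [ctr2_right hd ho' hS', pin_notMem (by simpa using hoo),
          pin_notMem (by simpa using hoo)]
        exact h1 o' fun h2 => Set.disjoint_left.1 hPS' h2.1 ho'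
      · have hvo : v ∉ ({o} : Set V) := by
          simp only [Set.mem_singleton_iff]
          exact fun h1 => hS (h1 ▸ ho)
        rw [ctr2_off hS hS', pin_notMem hvo, pin_notMem hvo]
        exact h1 v fun h2 => hS (h ⟨h2.1, hv⟩)

section lims

variable {f : (V → T) → ℝ} {S S' : Set V} {o o' : V}

lemma lim_one (hf : Continuous f) (hi : Inv f) (ho : o ∈ S) :
    Tendsto (fun n => (NW n (ctr S o))⁻¹ * ∫ θ, WR n (ctr S o) θ * f θ ∂(torusHaar V)) atTop
      (𝓝 (∫ θ, f (pin S 0 θ) ∂(torusHaar V))) := by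
  rw [← int_ctr hf hi ho]
  exact wr_lim (ctr_idem ho) hf

lemma lim_two (hf : Continuous f) (hd : Disjoint S S') (ho : o ∈ S) (ho' : o' ∈ S') :
    Tendsto (fun n => (NW n (ctr S o) * NW n (ctr S' o'))⁻¹ *
      ∫ θ, (WR n (ctr S o) θ * WR n (ctr S' o') θ) * f θ ∂(torusHaar V)) atTop
      (𝓝 (Zww f S o S' o')) := by
  have h := wr_lim (ctr2_idem hd ho ho') hf
  refine h.congr fun n => ?_
  rw [NW_two hd ho ho', WR_two hd ho ho']
  rfl

end lims

/-- positive integrals -/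
lemma ipos {f : (V → T) → ℝ} (hf : Continuous f) (h : ∀ θ, 0 < f θ) :
    0 < ∫ θ, f θ ∂(torusHaar V) :=
  int_pos_of_pos hf (fun θ => (h θ).le) (x := 0) (h 0).ne'

/-- ferromagnetic weights -/
structure Fer (w : C(V → T, ℝ)) : Prop where
  wt : pl w * mi w ∈ (PG (V → T)).S
  cos : w ∈ (PG (V → T)).cosS
  pos : ∀ θ, 0 < w θ
  inv : Inv w

lemma Fer.one : Fer (1 : C(V → T, ℝ)) where
  wt := wt_one
  cos := Subsemiring.one_mem _
  pos := fun θ => zero_lt_one
  inv := fun θ a => rfl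

lemma Fer.mul {a b : C(V → T, ℝ)} (ha : Fer a) (hb : Fer b) : Fer (a * b) where
  wt := wt_mul ha.wt hb.wt
  cos := Subsemiring.mul_mem _ ha.cos hb.cos
  pos := fun θ => mul_pos (ha.pos θ) (hb.pos θ)
  inv := ha.inv.mul hb.inv

lemma Fer.EN {ι : Type*} [Fintype ι] {J : ι → ℝ} (hJ : ∀ i, 0 ≤ J i) (s t : ι → V) :
    Fer (cexp (EN J s t)) where
  wt := wt_cexp (EN_cos hJ s t)
  cos := Pos.cexp_cosS _ (EN_cos hJ s t)
  pos := fun θ => Real.exp_pos _
  inv := (EN_inv J s t).cexp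

section main

variable {S S' : Set V} {o o' : V}

/-- (iv): wiring `S` and wiring `S'` -/
theorem step4 {a D : C(V → T, ℝ)} (ha : Fer a) (hD : Fer D) {M Q : Set V} (haM : Dep M a)
    (hDQ : Dep Q D) (hQM : Q ∩ M ⊆ S') (hQS : Disjoint Q S) (hd : Disjoint S S') (ho : o ∈ S)
    (ho' : o' ∈ S') :
    (∫ θ, a (pin S' 0 θ) ∂(torusHaar V)) *
      (∫ θ, a (pin S 0 θ) * D (pin S 0 θ) ∂(torusHaar V)) ≤
      Zww a S o S' o' * ∫ θ, a θ * D θ ∂(torusHaar V) := by
  have hW1 : Lew (PG (V → T)) 1 1 := Lew_self wt_one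
  have hDe : Lew (PG (V → T)) D D := Lew_self hD.wt
  -- the inequality before the limit
  have key : ∀ n, (∫ θ, WR n (ctr S' o') θ * (a θ * D θ) ∂(torusHaar V)) *
      (∫ θ, WR n (ctr S o) θ * (a θ * D θ) ∂(torusHaar V)) ≤
      (∫ θ, (WR n (ctr S o) θ * WR n (ctr S' o') θ) * (a θ * D θ) ∂(torusHaar V)) *
        ∫ θ, a θ * D θ ∂(torusHaar V) := by
    intro n
    have h := inflV (w := a) (A := 1) (B := WR n (ctr S o)) (C := D)
      (D := D * WR n (ctr S' o')) ha.wt (Lew_one_iff.2 (WR_cos n _))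
      (Lew.mul_cos hD.wt (WR_cos n _))
    refine le_trans (le_of_eq ?_) (h.trans (le_of_eq ?_))
    · congr 1
      · refine integral_congr_ae (Eventually.of_forall fun θ => ?_)
        show _ = a θ * (1 * (D θ * WR n (ctr S' o') θ))
        ring
      · refine integral_congr_ae (Eventually.of_forall fun θ => ?_)
        show _ = a θ * (WR n (ctr S o) θ * D θ)
        ring
    · congr 1
      · refine integral_congr_ae (Eventually.of_forall fun θ => ?_)
        show a θ * (WR n (ctr S o) θ * (D θ * WR n (ctr S' o') θ)) = _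
        ring
      · refine integral_congr_ae (Eventually.of_forall fun θ => ?_)
        show a θ * (1 * D θ) = _
        ring
  have cD : Continuous fun θ => a θ * D θ := by fun_prop
  have iD : Inv fun θ => a θ * D θ := ha.inv.mul hD.inv
  have hlim := le_of_tendsto_of_tendsto'
    ((lim_one (S := S') (o := o') cD iD ho').mul (lim_one (S := S) (o := o) cD iD ho))
    ((lim_two cD hd ho ho').mul_const (∫ θ, a θ * D θ ∂(torusHaar V))) fun n => by
      have q1 := NW_pos (V := V) n (ctr S o)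
      have q2 := NW_pos (V := V) n (ctr S' o')
      calc _ = (NW n (ctr S o) * NW n (ctr S' o'))⁻¹ *
            ((∫ θ, WR n (ctr S' o') θ * (a θ * D θ) ∂(torusHaar V)) *
            (∫ θ, WR n (ctr S o) θ * (a θ * D θ) ∂(torusHaar V))) := by
              rw [mul_inv]; ring
        _ ≤ (NW n (ctr S o) * NW n (ctr S' o'))⁻¹ *
            ((∫ θ, (WR n (ctr S o) θ * WR n (ctr S' o') θ) * (a θ * D θ) ∂(torusHaar V)) *
            ∫ θ, a θ * D θ ∂(torusHaar V)) :=
              mul_le_mul_of_nonneg_left (key n) (inv_nonneg.2 (mul_pos q1 q2).le)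
        _ = _ := by ring
  -- factorization
  have f1 : ∫ θ, a (pin S' 0 θ) * D (pin S' 0 θ) ∂(torusHaar V) =
      (∫ θ, D (pin S' 0 θ) ∂(torusHaar V)) * ∫ θ, a (pin S' 0 θ) ∂(torusHaar V) := by
    rw [← fact D.continuous a.continuous hDQ haM hQM]
    refine integral_congr_ae (Eventually.of_forall fun θ => ?_)
    show a _ * D _ = D _ * a _
    ring
  have f2 : Zww (fun θ => a θ * D θ) S o S' o' =
      (∫ θ, D (pin S' 0 θ) ∂(torusHaar V)) * Zww a S o S' o' := by
    have hsw : ∀ v, ctr2 S o S' o' v = ctr2 S' o' S o v := by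
      intro v
      by_cases h1 : v ∈ S
      · rw [ctr2_left hd h1, ctr2_right hd.symm ho h1]
      · by_cases h2 : v ∈ S'
        · rw [ctr2_right hd ho' h2, ctr2_left hd.symm h2]
        · rw [ctr2_off h1 h2, ctr2_off h2 h1]
    have h := fact2 (B := D) (X := a) D.continuous a.continuous hD.inv ha.inv hDQ haM hQM hQS
      hd.symm ho' ho
    have e : Zww a S' o' S o = Zww a S o S' o' := by
      unfold Zww
      refine integral_congr_ae (Eventually.of_forall fun θ => ?_)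
      show a _ = a _
      congr 1
      funext v
      rw [hsw]
    rw [e] at h
    rw [← h]
    unfold Zww
    refine integral_congr_ae (Eventually.of_forall fun θ => ?_)
    show a _ * D _ = D _ * a _
    have : (fun v => θ (ctr2 S o S' o' v)) = fun v => θ (ctr2 S' o' S o v) := by
      funext v
      rw [hsw]
    rw [this]
    ring
  have hlim' : (∫ θ, a (pin S' 0 θ) * D (pin S' 0 θ) ∂(torusHaar V)) *
      (∫ θ, a (pin S 0 θ) * D (pin S 0 θ) ∂(torusHaar V)) ≤
      Zww (fun θ => a θ * D θ) S o S' o' * ∫ θ, a θ * D θ ∂(torusHaar V) := hlim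
  rw [f1, f2] at hlim'
  have p0 : 0 < ∫ θ, D (pin S' 0 θ) ∂(torusHaar V) :=
    ipos (D.continuous.comp (pin_cont S' 0)) fun θ => hD.pos _
  have h5 : (∫ θ, D (pin S' 0 θ) ∂(torusHaar V)) * ((∫ θ, a (pin S' 0 θ) ∂(torusHaar V)) *
      (∫ θ, a (pin S 0 θ) * D (pin S 0 θ) ∂(torusHaar V))) ≤
      (∫ θ, D (pin S' 0 θ) ∂(torusHaar V)) *
        (Zww a S o S' o' * ∫ θ, a θ * D θ ∂(torusHaar V)) := by
    calc _ = (∫ θ, D (pin S' 0 θ) ∂(torusHaar V)) * (∫ θ, a (pin S' 0 θ) ∂(torusHaar V)) *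
        (∫ θ, a (pin S 0 θ) * D (pin S 0 θ) ∂(torusHaar V)) := by ring
      _ ≤ _ := hlim'
      _ = _ := by ring
  exact le_of_mul_le_mul_left h5 p0

/-- (ii): wiring `S` -/
theorem step2 {a B C D : C(V → T, ℝ)} (ha : Fer a) (hB : Fer B) (hC : Continuous C)
    (hCi : Inv C) (hDi : Inv D) {N P : Set V} (haN : Dep N fun θ => a θ * C θ)
    (haN' : Dep N fun θ => a θ * D θ) (hBP : Dep P B) (hPN : P ∩ N ⊆ S) (ho : o ∈ S)
    (hCD : Lew (PG (V → T)) C D) :
    (∫ θ, a θ * (B θ * D θ) ∂(torusHaar V)) *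
      (∫ θ, a (pin S 0 θ) * C (pin S 0 θ) ∂(torusHaar V)) ≤
      (∫ θ, a (pin S 0 θ) * D (pin S 0 θ) ∂(torusHaar V)) *
        ∫ θ, a θ * (B θ * C θ) ∂(torusHaar V) := by
  have key : ∀ n, (∫ θ, a θ * (B θ * D θ) ∂(torusHaar V)) *
      (∫ θ, WR n (ctr S o) θ * (B θ * (a θ * C θ)) ∂(torusHaar V)) ≤
      (∫ θ, WR n (ctr S o) θ * (B θ * (a θ * D θ)) ∂(torusHaar V)) *
        ∫ θ, a θ * (B θ * C θ) ∂(torusHaar V) := by
    intro n
    have h := inflV (w := a) (A := B) (B := B * WR n (ctr S o)) (C := C) (D := D) ha.wt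
      (Lew.mul_cos hB.wt (WR_cos n _)) hCD
    refine le_trans (le_of_eq ?_) (h.trans (le_of_eq ?_))
    · congr 1
      refine integral_congr_ae (Eventually.of_forall fun θ => ?_)
      show _ = a θ * ((B θ * WR n (ctr S o) θ) * C θ)
      ring
    · congr 1
      refine integral_congr_ae (Eventually.of_forall fun θ => ?_)
      show a θ * ((B θ * WR n (ctr S o) θ) * D θ) = _
      ring
  have cC : Continuous fun θ => B θ * (a θ * C θ) := by fun_prop
  have cD : Continuous fun θ => B θ * (a θ * D θ) := by fun_prop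
  have iC : Inv fun θ => B θ * (a θ * C θ) := hB.inv.mul (ha.inv.mul hCi)
  have iD : Inv fun θ => B θ * (a θ * D θ) := hB.inv.mul (ha.inv.mul hDi)
  have hlim := le_of_tendsto_of_tendsto'
    ((lim_one (S := S) (o := o) cC iC ho).const_mul (∫ θ, a θ * (B θ * D θ) ∂(torusHaar V)))
    ((lim_one (S := S) (o := o) cD iD ho).mul_const (∫ θ, a θ * (B θ * C θ) ∂(torusHaar V)))
    fun n => by
      have q1 := NW_pos (V := V) n (ctr S o)
      calc _ = (NW n (ctr S o))⁻¹ * ((∫ θ, a θ * (B θ * D θ) ∂(torusHaar V)) *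
            (∫ θ, WR n (ctr S o) θ * (B θ * (a θ * C θ)) ∂(torusHaar V))) := by ring
        _ ≤ (NW n (ctr S o))⁻¹ * ((∫ θ, WR n (ctr S o) θ * (B θ * (a θ * D θ)) ∂(torusHaar V)) *
            ∫ θ, a θ * (B θ * C θ) ∂(torusHaar V)) :=
              mul_le_mul_of_nonneg_left (key n) (inv_nonneg.2 q1.le)
        _ = _ := by ring
  have cC' : Continuous fun θ => a θ * C θ := by fun_prop
  have cD' : Continuous fun θ => a θ * D θ := by fun_prop
  rw [fact (B := B) (X := fun θ => a θ * C θ) B.continuous cC' hBP haN hPN,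
    fact (B := B) (X := fun θ => a θ * D θ) B.continuous cD' hBP haN' hPN] at hlim
  have p0 : 0 < ∫ θ, B (pin S 0 θ) ∂(torusHaar V) :=
    ipos (B.continuous.comp (pin_cont S 0)) fun θ => hB.pos _
  have h5 : (∫ θ, B (pin S 0 θ) ∂(torusHaar V)) * ((∫ θ, a θ * (B θ * D θ) ∂(torusHaar V)) *
      (∫ θ, a (pin S 0 θ) * C (pin S 0 θ) ∂(torusHaar V))) ≤
      (∫ θ, B (pin S 0 θ) ∂(torusHaar V)) * ((∫ θ, a (pin S 0 θ) * D (pin S 0 θ) ∂(torusHaar V)) *
        ∫ θ, a θ * (B θ * C θ) ∂(torusHaar V)) := by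
    calc _ = (∫ θ, a θ * (B θ * D θ) ∂(torusHaar V)) * ((∫ θ, B (pin S 0 θ) ∂(torusHaar V)) *
        (∫ θ, a (pin S 0 θ) * C (pin S 0 θ) ∂(torusHaar V))) := by ring
      _ ≤ _ := hlim
      _ = _ := by ring
  exact le_of_mul_le_mul_left h5 p0

/-- **(sandU)**: comparison of free and pinned outer boundary for a positive definite weight -/
theorem sandU {a B U : C(V → T, ℝ)} (ha : Fer a) (hB : Fer B) {M P : Set V} (haM : Dep M a)
    (hBP : Dep P B) (hPM : P ∩ M ⊆ S) (hPS' : Disjoint P S') (hd : Disjoint S S')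
    (ho : o ∈ S) (ho' : o' ∈ S') (hU : U ∈ (PG (V → T)).cosS) :
    ((∫ θ, U θ * a θ ∂(torusHaar V)) *
      ∫ θ, B (pin S' 0 θ) * a (pin S' 0 θ) ∂(torusHaar V)) *
      ((∫ θ, a (pin S 0 θ) ∂(torusHaar V)) * ∫ θ, a (pin S' 0 θ) ∂(torusHaar V)) ≤
    (Zww a S o S' o' * ∫ θ, a θ ∂(torusHaar V)) *
      ((∫ θ, B θ * a θ ∂(torusHaar V)) *
        ∫ θ, U (pin S' 0 θ) * a (pin S' 0 θ) ∂(torusHaar V)) := by
  classical
  -- first inequality
  have h1 : (∫ θ, a θ * U θ ∂(torusHaar V)) * (∫ θ, a (pin S' 0 θ) ∂(torusHaar V)) ≤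
      (∫ θ, a (pin S' 0 θ) * U (pin S' 0 θ) ∂(torusHaar V)) * ∫ θ, a θ ∂(torusHaar V) := by
    set F : Finset V := Finset.univ.filter (fun v => v ∈ S') with hF
    have hFS : (F : Set V) = S' := by ext v; simp [hF]
    have hps : ∀ n : ℕ, PK n F (0 : V → T) ∈ (PG (V → T)).cosS := by
      intro n
      refine Pos.cexp_cosS _ (Subsemiring.mul_mem _ (Pos.cosS_const _ _ (Nat.cast_nonneg n)) ?_)
      have e : ps F (0 : V → T) = ∑ v ∈ F, cc (sp v) := by
        ext θ
        rw [ContinuousMap.coe_sum, Finset.sum_apply, ps_apply]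
        refine Finset.sum_congr rfl fun v _ => ?_
        show cosT (θ v - 0) = cosT (θ v)
        rw [sub_zero]
      rw [e]
      exact Subsemiring.sum_mem _ fun v _ => PG_cos _
    have key : ∀ n, (∫ θ, a θ * U θ ∂(torusHaar V)) *
        (∫ θ, PK n F 0 θ * a θ ∂(torusHaar V)) ≤
        (∫ θ, PK n F 0 θ * (a θ * U θ) ∂(torusHaar V)) * ∫ θ, a θ ∂(torusHaar V) := by
      intro n
      have h := inflV (w := a) (A := 1) (B := PK n F 0) (C := 1) (D := U) ha.wt
        (Lew_one_iff.2 (hps n)) (Lew_one_iff.2 hU)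
      refine le_trans (le_of_eq ?_) (h.trans (le_of_eq ?_))
      · congr 1
        · refine integral_congr_ae (Eventually.of_forall fun θ => ?_)
          show _ = a θ * (1 * U θ)
          ring
        · refine integral_congr_ae (Eventually.of_forall fun θ => ?_)
          show _ = a θ * (PK n F 0 θ * 1)
          ring
      · congr 1
        · refine integral_congr_ae (Eventually.of_forall fun θ => ?_)
          show a θ * (PK n F 0 θ * U θ) = _
          ring
        · refine integral_congr_ae (Eventually.of_forall fun θ => ?_)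
          show a θ * (1 * 1) = _
          ring
    have l1 := peak F (0 : V → T) a.continuous
    have l2 := peak F (0 : V → T) (Φ := fun θ => a θ * U θ) (by fun_prop)
    rw [hFS] at l1 l2
    refine le_of_tendsto_of_tendsto' (l1.const_mul (∫ θ, a θ * U θ ∂(torusHaar V)))
      (l2.mul_const (∫ θ, a θ ∂(torusHaar V))) fun n => ?_
    have q1 := NN_pos n F (0 : V → T)
    calc _ = (NN n F 0)⁻¹ * ((∫ θ, a θ * U θ ∂(torusHaar V)) *
          (∫ θ, PK n F 0 θ * a θ ∂(torusHaar V))) := by ring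
      _ ≤ (NN n F 0)⁻¹ * ((∫ θ, PK n F 0 θ * (a θ * U θ) ∂(torusHaar V)) *
          ∫ θ, a θ ∂(torusHaar V)) := mul_le_mul_of_nonneg_left (key n) (inv_nonneg.2 q1.le)
      _ = _ := by ring
  -- second inequality
  have h2 := step4 (S := S') (S' := S) (o := o') (o' := o) ha hB haM hBP hPM hPS' hd.symm ho' ho
  have e : Zww a S' o' S o = Zww a S o S' o' := by
    unfold Zww
    refine integral_congr_ae (Eventually.of_forall fun θ => ?_)
    show a _ = a _
    congr 1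
    funext v
    by_cases h1 : v ∈ S
    · rw [ctr2_left hd h1, ctr2_right hd.symm ho h1]
    · by_cases h2 : v ∈ S'
      · rw [ctr2_right hd ho' h2, ctr2_left hd.symm h2]
      · rw [ctr2_off h1 h2, ctr2_off h2 h1]
  rw [e] at h2
  have c1 : ∫ θ, a θ * U θ ∂(torusHaar V) = ∫ θ, U θ * a θ ∂(torusHaar V) := by
    congr 1; funext θ; ring
  have c2 : ∫ θ, a (pin S' 0 θ) * U (pin S' 0 θ) ∂(torusHaar V) =
      ∫ θ, U (pin S' 0 θ) * a (pin S' 0 θ) ∂(torusHaar V) := by
    congr 1; funext θ; ring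
  have c3 : ∫ θ, a θ * B θ ∂(torusHaar V) = ∫ θ, B θ * a θ ∂(torusHaar V) := by
    congr 1; funext θ; ring
  have c4 : ∫ θ, a (pin S' 0 θ) * B (pin S' 0 θ) ∂(torusHaar V) =
      ∫ θ, B (pin S' 0 θ) * a (pin S' 0 θ) ∂(torusHaar V) := by
    congr 1; funext θ; ring
  rw [c1, c2] at h1
  rw [c3, c4] at h2
  set x1 := ∫ θ, U θ * a θ ∂(torusHaar V)
  set x2 := ∫ θ, a (pin S' 0 θ) ∂(torusHaar V)
  set x3 := ∫ θ, U (pin S' 0 θ) * a (pin S' 0 θ) ∂(torusHaar V)
  set x4 := ∫ θ, a θ ∂(torusHaar V)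
  have p1 : 0 < ∫ θ, a (pin S 0 θ) ∂(torusHaar V) :=
    ipos (a.continuous.comp (pin_cont S 0)) fun θ => ha.pos _
  have p4 : 0 < x4 := ipos a.continuous ha.pos
  have p2 : 0 < ∫ θ, B (pin S' 0 θ) * a (pin S' 0 θ) ∂(torusHaar V) :=
    ipos ((B.continuous.comp (pin_cont S' 0)).mul (a.continuous.comp (pin_cont S' 0)))
      fun θ => mul_pos (hB.pos _) (ha.pos _)
  have p3 : 0 ≤ x3 := by
    have h6 : 0 ≤ x1 := by
      rw [← c1]
      exact pos_int ha.wt ha.pos hU
    by_contra hx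
    have hx' : x3 < 0 := not_le.1 hx
    have h7 : x1 * x2 < 0 := h1.trans_lt (mul_neg_of_neg_of_pos hx' p4)
    have h8 : 0 ≤ x1 * x2 := mul_nonneg h6
      (ipos (a.continuous.comp (pin_cont S' 0)) fun θ => ha.pos _).le
    linarith
  calc x1 * (∫ θ, B (pin S' 0 θ) * a (pin S' 0 θ) ∂(torusHaar V)) *
        ((∫ θ, a (pin S 0 θ) ∂(torusHaar V)) * x2)
      = (x1 * x2) * ((∫ θ, a (pin S 0 θ) ∂(torusHaar V)) *
        (∫ θ, B (pin S' 0 θ) * a (pin S' 0 θ) ∂(torusHaar V))) := by ring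
    _ ≤ (x3 * x4) * ((∫ θ, a (pin S 0 θ) ∂(torusHaar V)) *
        (∫ θ, B (pin S' 0 θ) * a (pin S' 0 θ) ∂(torusHaar V))) :=
        mul_le_mul_of_nonneg_right h1 (mul_pos p1 p2).le
    _ ≤ (x3 * x4) * (Zww a S o S' o' * ∫ θ, B θ * a θ ∂(torusHaar V)) :=
        mul_le_mul_of_nonneg_left h2 (mul_nonneg p3 p4.le)
    _ = _ := by ring

/-- **(SAND)**: influences between inner and outer modifications are at most the influence of the
annulus -/
theorem sand {a A B C D : C(V → T, ℝ)} (ha : Fer a) (hA : A ∈ (PG (V → T)).cosS)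
    (hA0 : ∀ θ, 0 < A θ) (hB : Fer B) (hC : C ∈ (PG (V → T)).cosS) (hC0 : ∀ θ, 0 < C θ)
    (hCi : Inv C) (hD : Fer D) (hAB : Lew (PG (V → T)) A B) (hCD : Lew (PG (V → T)) C D)
    {M P Q : Set V} (haM : Dep M a) (hBP : Dep P B) (hCQ : Dep Q C) (hDQ : Dep Q D)
    (hPM : P ∩ M ⊆ S) (hPQ : Disjoint P Q) (hQM : Q ∩ M ⊆ S') (hQS : Disjoint Q S)
    (hd : Disjoint S S') (ho : o ∈ S) (ho' : o' ∈ S') :
    ((∫ θ, a θ * (B θ * D θ) ∂(torusHaar V)) * ∫ θ, a θ * (A θ * C θ) ∂(torusHaar V)) *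
      ((∫ θ, a (pin S 0 θ) ∂(torusHaar V)) * ∫ θ, a (pin S' 0 θ) ∂(torusHaar V)) ≤
    (Zww a S o S' o' * ∫ θ, a θ ∂(torusHaar V)) *
      ((∫ θ, a θ * (A θ * D θ) ∂(torusHaar V)) * ∫ θ, a θ * (B θ * C θ) ∂(torusHaar V)) := by
  have hMQ : P ∩ (M ∪ Q) ⊆ S := by
    rintro v ⟨h1, h2 | h2⟩
    · exact hPM ⟨h1, h2⟩
    · exact absurd h2 (Set.disjoint_left.1 hPQ h1)
  have dC : Dep (M ∪ Q) fun θ => a θ * C θ := by
    intro θ θ' h
    show a θ * C θ = a θ' * C θ'
    rw [haM θ θ' fun v hv => h v (Or.inl hv), hCQ θ θ' fun v hv => h v (Or.inr hv)]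
  have dD : Dep (M ∪ Q) fun θ => a θ * D θ := by
    intro θ θ' h
    show a θ * D θ = a θ' * D θ'
    rw [haM θ θ' fun v hv => h v (Or.inl hv), hDQ θ θ' fun v hv => h v (Or.inr hv)]
  have d1 : Dep (M ∪ Q) fun θ => a θ * (1 : C(V → T, ℝ)) θ := by
    intro θ θ' h
    show a θ * 1 = a θ' * 1
    rw [haM θ θ' fun v hv => h v (Or.inl hv)]
  -- (i)
  have i1 := inflV (w := a) (A := 1) (B := A) (C := C) (D := D) ha.wt (Lew_one_iff.2 hA) hCD
  have e1 : ∫ θ, a θ * ((1 : C(V → T, ℝ)) θ * D θ) ∂(torusHaar V) =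
      ∫ θ, a θ * D θ ∂(torusHaar V) := by
    congr 1; funext θ; rw [ContinuousMap.one_apply, one_mul]
  have e2 : ∫ θ, a θ * ((1 : C(V → T, ℝ)) θ * C θ) ∂(torusHaar V) =
      ∫ θ, a θ * C θ ∂(torusHaar V) := by
    congr 1; funext θ; rw [ContinuousMap.one_apply, one_mul]
  rw [e1, e2] at i1
  -- (ii)
  have i2 := step2 (S := S) (o := o) ha hB C.continuous hCi hD.inv dC dD hBP hMQ ho hCD
  -- (iii)
  have i3 := step2 (S := S) (o := o) (B := 1) (C := 1) (D := C) (P := ∅) (N := Set.univ) ha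
    Fer.one (by exact (1 : C(V → T, ℝ)).continuous) (fun _ _ => rfl) hCi
    (fun θ θ' h => by
      have : θ = θ' := funext fun v => h v trivial
      rw [this])
    (fun θ θ' h => by
      have : θ = θ' := funext fun v => h v trivial
      rw [this])
    (fun _ _ _ => rfl) (by simp) ho (Lew_one_iff.2 hC)
  have e3 : ∫ θ, a θ * ((1 : C(V → T, ℝ)) θ * (1 : C(V → T, ℝ)) θ) ∂(torusHaar V) =
      ∫ θ, a θ ∂(torusHaar V) := by
    congr 1; funext θ; rw [ContinuousMap.one_apply]; ring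
  have e4 : ∫ θ, a (pin S 0 θ) * (1 : C(V → T, ℝ)) (pin S 0 θ) ∂(torusHaar V) =
      ∫ θ, a (pin S 0 θ) ∂(torusHaar V) := by
    congr 1; funext θ; rw [ContinuousMap.one_apply, mul_one]
  rw [e2, e3, e4] at i3
  -- (iv)
  have i4 := step4 (S := S) (S' := S') (o := o) (o' := o') ha hD haM hDQ hQM hQS hd ho ho'
  set zBD := ∫ θ, a θ * (B θ * D θ) ∂(torusHaar V)
  set zAC := ∫ θ, a θ * (A θ * C θ) ∂(torusHaar V)
  set zAD := ∫ θ, a θ * (A θ * D θ) ∂(torusHaar V)
  set zBC := ∫ θ, a θ * (B θ * C θ) ∂(torusHaar V)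
  set zD := ∫ θ, a θ * D θ ∂(torusHaar V)
  set zC := ∫ θ, a θ * C θ ∂(torusHaar V)
  set sC := ∫ θ, a (pin S 0 θ) * C (pin S 0 θ) ∂(torusHaar V)
  set sD := ∫ θ, a (pin S 0 θ) * D (pin S 0 θ) ∂(torusHaar V)
  set s1 := ∫ θ, a (pin S 0 θ) ∂(torusHaar V)
  set s1' := ∫ θ, a (pin S' 0 θ) ∂(torusHaar V)
  set z1 := ∫ θ, a θ ∂(torusHaar V)
  have pD : 0 < zD := ipos (by fun_prop) fun θ => mul_pos (ha.pos θ) (hD.pos θ)
  have pC : 0 < zC := ipos (by fun_prop) fun θ => mul_pos (ha.pos θ) (hC0 θ)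
  have psC : 0 < sC := ipos ((a.continuous.comp (pin_cont S 0)).mul
    (C.continuous.comp (pin_cont S 0))) fun θ => mul_pos (ha.pos _) (hC0 _)
  have psD : 0 < sD := ipos ((a.continuous.comp (pin_cont S 0)).mul
    (D.continuous.comp (pin_cont S 0))) fun θ => mul_pos (ha.pos _) (hD.pos _)
  have ps1 : 0 < s1 := ipos (a.continuous.comp (pin_cont S 0)) fun θ => ha.pos _
  have ps1' : 0 < s1' := ipos (a.continuous.comp (pin_cont S' 0)) fun θ => ha.pos _
  have pz1 : 0 < z1 := ipos a.continuous ha.pos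
  have pBD : 0 < zBD := ipos (by fun_prop) fun θ =>
    mul_pos (ha.pos θ) (mul_pos (hB.pos θ) (hD.pos θ))
  have pAC : 0 < zAC := ipos (by fun_prop) fun θ =>
    mul_pos (ha.pos θ) (mul_pos (hA0 θ) (hC0 θ))
  have pAD : 0 < zAD := ipos (by fun_prop) fun θ =>
    mul_pos (ha.pos θ) (mul_pos (hA0 θ) (hD.pos θ))
  have pBC : 0 < zBC := ipos (by fun_prop) fun θ =>
    mul_pos (ha.pos θ) (mul_pos (hB.pos θ) (hC0 θ))
  -- product of the four inequalities
  have m1 : zD * zAC ≤ zAD * zC := i1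
  have m2 : zBD * sC ≤ sD * zBC := i2
  have m3 : zC * s1 ≤ sC * z1 := i3
  have m4 : s1' * sD ≤ Zww a S o S' o' * zD := i4
  have m12 : (zD * zAC) * (zBD * sC) ≤ (zAD * zC) * (sD * zBC) :=
    mul_le_mul m1 m2 (mul_pos pBD psC).le (mul_pos pAD pC).le
  have m34 : (zC * s1) * (s1' * sD) ≤ (sC * z1) * (Zww a S o S' o' * zD) :=
    mul_le_mul m3 m4 (mul_pos ps1' psD).le (mul_pos psC pz1).le
  have m : ((zD * zAC) * (zBD * sC)) * ((zC * s1) * (s1' * sD)) ≤
      ((zAD * zC) * (sD * zBC)) * ((sC * z1) * (Zww a S o S' o' * zD)) :=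
    mul_le_mul m12 m34 (mul_pos (mul_pos pC ps1) (mul_pos ps1' psD)).le
      (mul_pos (mul_pos pAD pC) (mul_pos psD pBC)).le
  have q : 0 < zD * sC * zC * sD := mul_pos (mul_pos (mul_pos pD psC) pC) psD
  refine le_of_mul_le_mul_left ?_ q
  calc zD * sC * zC * sD * (zBD * zAC * (s1 * s1'))
      = ((zD * zAC) * (zBD * sC)) * ((zC * s1) * (s1' * sD)) := by ring
    _ ≤ _ := m
    _ = _ := by ring

/-- boundary phases -/
theorem phase {w D : C(V → T, ℝ)} (hw : pl w * mi w ∈ (PG (V → T)).S)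
    (hD : D ∈ (PG (V → T)).cosS) (S : Set V) (ζ : V → T) :
    (∫ θ, w (pin S ζ θ) * D (pin S ζ θ) ∂(torusHaar V)) *
      (∫ θ, w (pin S 0 θ) ∂(torusHaar V)) ≤
    (∫ θ, w (pin S 0 θ) * D (pin S 0 θ) ∂(torusHaar V)) *
      ∫ θ, w (pin S ζ θ) ∂(torusHaar V) := by
  obtain ⟨η, hη⟩ := pi_div2 ζ
  -- the cone is stable under pinning both replicas at `η`
  have hK : ∀ F ∈ (PG (V → T)).S, 0 ≤ ∫ p : (V → T) × (V → T), F (pin S η p.1, pin S η p.2)
      ∂((torusHaar V).prod (torusHaar V)) := by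
    set κ : C((V → T) × (V → T), (V → T) × (V → T)) :=
      ⟨fun p => (pin S η p.1, pin S η p.2), by
        have h1 := pin_cont S η
        exact (h1.comp continuous_fst).prodMk (h1.comp continuous_snd)⟩ with hκ
    intro F hF
    have hcl : IsClosed {f : C((V → T) × (V → T), ℝ) |
        0 ≤ ∫ p, f (κ p) ∂((torusHaar V).prod (torusHaar V))} := by
      refine isClosed_le continuous_const ?_
      have h1 := continuous_int ((torusHaar V).prod (torusHaar V))
      have h2 : Continuous fun f : C((V → T) × (V → T), ℝ) => f.comp κ :=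
        ContinuousMap.continuous_precomp κ
      exact h1.comp h2
    have hsub : ((Subsemiring.closure (MG (V → T) : Set C((V → T) × (V → T), ℝ)) :
        Subsemiring _) : Set C((V → T) × (V → T), ℝ)) ⊆
        {f | 0 ≤ ∫ p, f (κ p) ∂((torusHaar V).prod (torusHaar V))} := by
      intro g hg
      rw [SetLike.mem_coe, Subsemiring.mem_closure_iff, Submonoid.closure_eq] at hg
      induction hg using AddSubmonoid.closure_induction with
      | mem x hx =>
        obtain ⟨r, f, hr, h⟩ := hx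
        have h1 : ∀ p : (V → T) × (V → T), x (κ p) =
            r * (f (pin S η p.1) * f (pin S η p.2)) := fun p => h _
        show 0 ≤ ∫ p, x (κ p) ∂((torusHaar V).prod (torusHaar V))
        simp_rw [h1]
        rw [integral_const_mul, integral_prod_mul (fun x => f (pin S η x))
          (fun x => f (pin S η x))]
        exact mul_nonneg hr (mul_self_nonneg _)
      | zero => simp
      | add x y _ _ hx hy =>
        simp only [Set.mem_setOf_eq, ContinuousMap.coe_add, Pi.add_apply] at hx hy ⊢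
        have h1 : Integrable (fun p => x (κ p)) ((torusHaar V).prod (torusHaar V)) :=
          cint (x.continuous.comp κ.continuous)
        have h2 : Integrable (fun p => y (κ p)) ((torusHaar V).prod (torusHaar V)) :=
          cint (y.continuous.comp κ.continuous)
        rw [integral_add h1 h2]
        exact add_nonneg hx hy
    exact closure_minimal hsub hcl hF
  have h1 := hK _ ((PG (V → T)).S.mul_mem hw hD.2)
  have hc : Continuous (fun p : (V → T) × (V → T) => w (pin S ζ p.1) * w (pin S 0 p.2) *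
      (D (pin S 0 p.2) - D (pin S ζ p.1))) := by
    have c1 := pin_cont S ζ
    have c2 := pin_cont S (0 : V → T)
    exact ((w.continuous.comp (c1.comp continuous_fst)).mul
      (w.continuous.comp (c2.comp continuous_snd))).mul
      ((D.continuous.comp (c2.comp continuous_snd)).sub
        (D.continuous.comp (c1.comp continuous_fst)))
  have hrot := integral_rot (torusHaar V) pi_div2 hc
  have e0 : ∀ x y : V → T, pin S η x + pin S η y = pin S ζ (x + y) := by
    intro x y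
    funext v
    by_cases h : v ∈ S
    · rw [Pi.add_apply, pin_mem h, pin_mem h, pin_mem h, ← hη]
      rfl
    · rw [Pi.add_apply, pin_notMem h, pin_notMem h, pin_notMem h]
      rfl
  have e0' : ∀ x y : V → T, pin S η x - pin S η y = pin S 0 (x - y) := by
    intro x y
    funext v
    by_cases h : v ∈ S
    · rw [Pi.sub_apply, pin_mem h, pin_mem h, pin_mem h, sub_self]
      rfl
    · rw [Pi.sub_apply, pin_notMem h, pin_notMem h, pin_notMem h]
      rfl
  have e1 : ∫ p : (V → T) × (V → T), (pl w * mi w * (mi D - pl D)) (pin S η p.1, pin S η p.2)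
      ∂((torusHaar V).prod (torusHaar V)) =
      ∫ p : (V → T) × (V → T), w (pin S ζ p.1) * w (pin S 0 p.2) *
      (D (pin S 0 p.2) - D (pin S ζ p.1)) ∂((torusHaar V).prod (torusHaar V)) := by
    rw [← hrot]
    refine integral_congr_ae (Eventually.of_forall fun p => ?_)
    show w (pin S η p.1 + pin S η p.2) * w (pin S η p.1 - pin S η p.2) *
      (D (pin S η p.1 - pin S η p.2) - D (pin S η p.1 + pin S η p.2)) = _
    rw [e0, e0']
  rw [e1] at h1
  have e2 : ∀ p : (V → T) × (V → T), w (pin S ζ p.1) * w (pin S 0 p.2) *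
      (D (pin S 0 p.2) - D (pin S ζ p.1)) =
      w (pin S ζ p.1) * (w (pin S 0 p.2) * D (pin S 0 p.2)) -
      (w (pin S ζ p.1) * D (pin S ζ p.1)) * w (pin S 0 p.2) := by
    intro p; ring
  simp_rw [e2] at h1
  have i : ∀ {f g : (V → T) → ℝ}, Continuous f → Continuous g →
      Integrable (fun p : (V → T) × (V → T) => f p.1 * g p.2)
        ((torusHaar V).prod (torusHaar V)) := fun hf hg =>
    cint ((hf.comp continuous_fst).mul (hg.comp continuous_snd))
  have k1 : Continuous (fun x => w (pin S ζ x)) := w.continuous.comp (pin_cont S ζ)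
  have k2 : Continuous (fun x => w (pin S (0 : V → T) x)) := w.continuous.comp (pin_cont S 0)
  have k3 : Continuous (fun x => w (pin S ζ x) * D (pin S ζ x)) :=
    k1.mul (D.continuous.comp (pin_cont S ζ))
  have k4 : Continuous (fun x => w (pin S (0 : V → T) x) * D (pin S 0 x)) :=
    k2.mul (D.continuous.comp (pin_cont S 0))
  rw [integral_sub (i k1 k4) (i k3 k2),
    integral_prod_mul (fun x => w (pin S ζ x)) (fun x => w (pin S (0 : V → T) x) * D (pin S 0 x)),
    integral_prod_mul (fun x => w (pin S ζ x) * D (pin S ζ x))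
      (fun x => w (pin S (0 : V → T) x))] at h1
  linarith

/-- **(RM) ratio mixing** -/
theorem rm {a B D : C(V → T, ℝ)} {F : (V → T) → ℝ} (ha : Fer a)
    (hB : B ∈ (PG (V → T)).cosS) (hB0 : ∀ θ, 0 ≤ B θ) (hD : Fer D) (hF : Continuous F)
    (hF0 : ∀ θ, 0 ≤ F θ) {M P Q : Set V} (haM : Dep M a) (hBP : Dep P B) (hFP : Dep P F)
    (hDQ : Dep Q D) (hSP : S ⊆ P) (hPM : P ∩ M ⊆ S) (hPQ : Disjoint P Q) (hQM : Q ∩ M ⊆ S')
    (hd : Disjoint S S') (ho : o ∈ S) (ho' : o' ∈ S') :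
    ((∫ θ, F θ * B θ * (a θ * D θ) ∂(torusHaar V)) * ∫ θ, B θ * a θ ∂(torusHaar V)) *
      ((∫ θ, a (pin S 0 θ) ∂(torusHaar V)) * ∫ θ, a (pin S' 0 θ) ∂(torusHaar V)) ≤
    (Zww a S o S' o' * ∫ θ, a θ ∂(torusHaar V)) *
      ((∫ θ, B θ * (a θ * D θ) ∂(torusHaar V)) * ∫ θ, F θ * B θ * a θ ∂(torusHaar V)) := by
  have hQS : Disjoint Q S := (Set.disjoint_of_subset_left hSP hPQ).symm
  have hMQ : P ∩ (M ∪ Q) ⊆ S := by
    rintro v ⟨h1, h2 | h2⟩
    · exact hPM ⟨h1, h2⟩
    · exact absurd h2 (Set.disjoint_left.1 hPQ h1)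
  -- disintegration
  have dis : ∀ X : (V → T) → ℝ, Continuous X → Dep (M ∪ Q) X →
      ∫ θ, F θ * B θ * X θ ∂(torusHaar V) =
        ∫ ζ, F ζ * B ζ * ∫ θ, X (pin S ζ θ) ∂(torusHaar V) ∂(torusHaar V) := by
    intro X hX hXd
    rw [← integral_pin P (f := fun θ => F θ * B θ * X θ) (by fun_prop)]
    refine integral_congr_ae (Eventually.of_forall fun ζ => ?_)
    show ∫ θ, F (pin P ζ θ) * B (pin P ζ θ) * X (pin P ζ θ) ∂(torusHaar V) =
      F ζ * B ζ * ∫ θ, X (pin S ζ θ) ∂(torusHaar V)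
    rw [← integral_const_mul]
    refine integral_congr_ae (Eventually.of_forall fun θ => ?_)
    show F (pin P ζ θ) * B (pin P ζ θ) * X (pin P ζ θ) = F ζ * B ζ * X (pin S ζ θ)
    rw [hFP (pin P ζ θ) ζ fun v hv => pin_mem hv, hBP (pin P ζ θ) ζ fun v hv => pin_mem hv,
      hXd (pin P ζ θ) (pin S ζ θ) fun v hv => ?_]
    by_cases hS : v ∈ S
    · rw [pin_mem hS, pin_mem (hSP hS)]
    · rw [pin_notMem hS, pin_notMem fun h => hS (hMQ ⟨h, hv⟩)]
  have dD : Dep (M ∪ Q) fun θ => a θ * D θ := by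
    intro θ θ' h
    show a θ * D θ = a θ' * D θ'
    rw [haM θ θ' fun v hv => h v (Or.inl hv), hDQ θ θ' fun v hv => h v (Or.inr hv)]
  have d1 : Dep (M ∪ Q) a := fun θ θ' h => haM θ θ' fun v hv => h v (Or.inl hv)
  have r1 := dis (fun θ => a θ * D θ) (by fun_prop) dD
  have r2 := dis a a.continuous d1
  have cV1 : Continuous fun ζ : V → T => ∫ θ, a (pin S ζ θ) * D (pin S ζ θ) ∂(torusHaar V) :=
    pin_int_cont S (f := fun θ => a θ * D θ) (by fun_prop)
  have cV2 : Continuous fun ζ : V → T => ∫ θ, a (pin S ζ θ) ∂(torusHaar V) :=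
    pin_int_cont S a.continuous
  -- comparison
  have h1 : (∫ θ, F θ * B θ * (a θ * D θ) ∂(torusHaar V)) *
      (∫ θ, a (pin S 0 θ) ∂(torusHaar V)) ≤
      (∫ θ, a (pin S 0 θ) * D (pin S 0 θ) ∂(torusHaar V)) *
        ∫ θ, F θ * B θ * a θ ∂(torusHaar V) := by
    rw [r1, r2, ← integral_mul_const, ← integral_const_mul]
    refine int_mono_ae ?_ ?_ fun ζ => ?_
    · exact ((hF.mul B.continuous).mul cV1).mul continuous_const
    · exact continuous_const.mul ((hF.mul B.continuous).mul cV2)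
    · have h2 := phase ha.wt hD.cos S ζ
      have h3 : 0 ≤ F ζ * B ζ := mul_nonneg (hF0 ζ) (hB0 ζ)
      calc _ = (F ζ * B ζ) * ((∫ θ, a (pin S ζ θ) * D (pin S ζ θ) ∂(torusHaar V)) *
            (∫ θ, a (pin S 0 θ) ∂(torusHaar V))) := by ring
        _ ≤ (F ζ * B ζ) * ((∫ θ, a (pin S 0 θ) * D (pin S 0 θ) ∂(torusHaar V)) *
            ∫ θ, a (pin S ζ θ) ∂(torusHaar V)) := mul_le_mul_of_nonneg_left h2 h3
        _ = _ := by ring
  have i4 := step4 (S := S) (S' := S') (o := o) (o' := o') ha hD haM hDQ hQM hQS hd ho ho'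
  have i5 := inflV (w := a) (A := 1) (B := B) (C := 1) (D := D) ha.wt (Lew_one_iff.2 hB)
    (Lew_one_iff.2 hD.cos)
  have e1 : ∫ θ, a θ * ((1 : C(V → T, ℝ)) θ * D θ) ∂(torusHaar V) =
      ∫ θ, a θ * D θ ∂(torusHaar V) := by
    congr 1; funext θ; rw [ContinuousMap.one_apply, one_mul]
  have e2 : ∫ θ, a θ * (B θ * (1 : C(V → T, ℝ)) θ) ∂(torusHaar V) =
      ∫ θ, B θ * a θ ∂(torusHaar V) := by
    congr 1; funext θ; rw [ContinuousMap.one_apply]; ring
  have e3 : ∫ θ, a θ * (B θ * D θ) ∂(torusHaar V) =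
      ∫ θ, B θ * (a θ * D θ) ∂(torusHaar V) := by
    congr 1; funext θ; ring
  have e4 : ∫ θ, a θ * ((1 : C(V → T, ℝ)) θ * (1 : C(V → T, ℝ)) θ) ∂(torusHaar V) =
      ∫ θ, a θ ∂(torusHaar V) := by
    congr 1; funext θ; rw [ContinuousMap.one_apply]; ring
  rw [e1, e2, e3, e4] at i5
  set xF := ∫ θ, F θ * B θ * (a θ * D θ) ∂(torusHaar V)
  set xf := ∫ θ, F θ * B θ * a θ ∂(torusHaar V)
  set zB := ∫ θ, B θ * a θ ∂(torusHaar V)
  set zBD := ∫ θ, B θ * (a θ * D θ) ∂(torusHaar V)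
  set zD := ∫ θ, a θ * D θ ∂(torusHaar V)
  set sD := ∫ θ, a (pin S 0 θ) * D (pin S 0 θ) ∂(torusHaar V)
  set s1 := ∫ θ, a (pin S 0 θ) ∂(torusHaar V)
  set s1' := ∫ θ, a (pin S' 0 θ) ∂(torusHaar V)
  set z1 := ∫ θ, a θ ∂(torusHaar V)
  have pzB : 0 ≤ zB := integral_nonneg fun θ => mul_nonneg (hB0 θ) (ha.pos θ).le
  have pxf : 0 ≤ xf := integral_nonneg fun θ =>
    mul_nonneg (mul_nonneg (hF0 θ) (hB0 θ)) (ha.pos θ).le
  have ps1' : 0 ≤ s1' := (ipos (a.continuous.comp (pin_cont S' 0)) fun θ => ha.pos _).le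
  have pw : 0 ≤ Zww a S o S' o' :=
    (ipos (a.continuous.comp (relab_cont _)) fun θ => ha.pos _).le
  calc xF * zB * (s1 * s1') = (xF * s1) * (zB * s1') := by ring
    _ ≤ (sD * xf) * (zB * s1') := mul_le_mul_of_nonneg_right h1 (mul_nonneg pzB ps1')
    _ = (s1' * sD) * (zB * xf) := by ring
    _ ≤ (Zww a S o S' o' * zD) * (zB * xf) :=
        mul_le_mul_of_nonneg_right i4 (mul_nonneg pzB pxf)
    _ = (zD * zB) * (Zww a S o S' o' * xf) := by ring
    _ ≤ (zBD * z1) * (Zww a S o S' o' * xf) :=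
        mul_le_mul_of_nonneg_right i5 (mul_nonneg pw pxf)
    _ = _ := by ring

end main

end Vale.Agent.P159.TM.H389
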