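import Vale.Agent.P159.TM.H389.Ttot
import Vale.Agent.P159.H950.B1

/-!
Row ITTOT: the influence between two sets of spins is bounded by the energy of a rotation by `π/2`.
-/

open MeasureTheory Filter Topology
open scoped BigOperators

set_option linter.all false

namespace Vale.Agent.P159.TM.H389

open Vale.Agent.P159 Vale.Agent.P159.UJ Vale.Agent.P159.T1.H42 Vale.Agent.P159.H950

variable {V : Type*} [Fintype V] {ι : Type*} [Fintype ι]

/-- pinning at `0` as a homomorphism -/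
noncomputable def pinH (X : Set V) : (V → T) →+ (V → T) where
  toFun θ := pin X 0 θ
  map_zero' := by
    funext v
    by_cases h : v ∈ X
    · rw [pin_mem h]
    · rw [pin_notMem h]
  map_add' x y := by
    funext v
    by_cases h : v ∈ X
    · rw [Pi.add_apply, pin_mem h, pin_mem h, pin_mem h]
      simp
    · rw [Pi.add_apply, pin_notMem h, pin_notMem h, pin_notMem h]
      rfl

/-- the relative angles as characters -/
noncomputable def chiX (s t : ι → V) (X : Set V) (i : ι) : Chr (V → T) :=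
  (grad (s i) (t i)).comp (pinH X) (pin_cont X 0)

variable {J : ι → ℝ} {s t : ι → V} {S S' : Set V} {ψ : V → ℝ}

lemma Zr_eq (hd : Disjoint S S') (h0 : ∀ v ∈ S, ψ v = 0) (h1 : ∀ v ∈ S', ψ v = 1) (x : ℝ) :
    Zr (torusHaar V) J (chiX s t (S ∪ S')) (fun i => x * (ψ (s i) - ψ (t i))) =
      Aph (cexp (EN J s t)) S S' (x : T) := by
  rw [← int_norm_gz (J := J) (s := s) (t := t) hd h0 h1 x]
  unfold Zr
  refine integral_congr_ae (Eventually.of_forall fun θ => ?_)
  have e : ‖gz J s t (S ∪ S') ψ (x : ℂ) θ‖ = Real.exp (∑ i, J i * cosT (ang s t (S ∪ S') θ i +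
      ((x * (ψ (s i) - ψ (t i)) : ℝ) : T))) := by
    rw [gz_coe, Complex.norm_real, Real.norm_eq_abs, abs_of_pos (Real.exp_pos _)]
  show Real.exp _ = ‖gz J s t (S ∪ S') ψ (x : ℂ) θ‖
  rw [e]
  refine congrArg Real.exp (Finset.sum_congr rfl fun i _ => ?_)
  rw [cosT_add_coe]
  rfl

theorem Aph_le (hJ : ∀ i, 0 ≤ J i) (hd : Disjoint S S') (h0 : ∀ v ∈ S, ψ v = 0)
    (h1 : ∀ v ∈ S', ψ v = 1) (φ : T) :
    Aph (cexp (EN J s t)) S S' φ ≤ Aph (cexp (EN J s t)) S S' 0 := by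
  induction φ using QuotientAddGroup.induction_on with
  | H x =>
    have h := Zr_le (torusHaar V) J (chiX s t (S ∪ S')) pi_div2 hJ
      (fun i => x * (ψ (s i) - ψ (t i)))
    have e := Zr_eq (J := J) (s := s) (t := t) hd h0 h1 x
    have e0 := Zr_eq (J := J) (s := s) (t := t) hd h0 h1 0
    have e1 : (fun i => 0 * (ψ (s i) - ψ (t i))) = (0 : ι → ℝ) := by
      funext i
      simp
    rw [e1] at e0
    rw [e, e0] at h
    have e2 : ((0 : ℝ) : T) = 0 := rfl
    rw [e2] at h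
    exact h

theorem Aph_ge (hJ : ∀ i, 0 ≤ J i) (hd : Disjoint S S') (h0 : ∀ v ∈ S, ψ v = 0)
    (h1 : ∀ v ∈ S', ψ v = 1) (x : ℝ) :
    Real.exp (-(∑ i, J i * (x * (ψ (s i) - ψ (t i))) ^ 2) / 2) *
      Aph (cexp (EN J s t)) S S' 0 ≤ Aph (cexp (EN J s t)) S S' (x : T) := by
  have h2 := lowerZ (torusHaar V) J (chiX s t (S ∪ S')) pi_div2 hJ
      (fun i => x * (ψ (s i) - ψ (t i)))
  rw [QQ_zero] at h2
  have h3 := Qform_le (torusHaar V) J (chiX s t (S ∪ S')) hJ
    (fun i => x * (ψ (s i) - ψ (t i)))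
  have h4 := Zr_pos (torusHaar V) J (chiX s t (S ∪ S')) 0
  rw [le_div_iff₀ h4] at h2
  have e := Zr_eq (J := J) (s := s) (t := t) hd h0 h1 x
  have e0 := Zr_eq (J := J) (s := s) (t := t) hd h0 h1 0
  have e1 : (fun i => 0 * (ψ (s i) - ψ (t i))) = (0 : ι → ℝ) := by
    funext i
    simp
  rw [e1] at e0
  rw [e0] at h4
  rw [e, e0] at h2
  have e2 : ((0 : ℝ) : T) = 0 := rfl
  rw [e2] at h2 h4
  refine le_trans (mul_le_mul_of_nonneg_right (Real.exp_le_exp.2 ?_) h4.le) h2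
  linarith

/-- **bounded influence** -/
theorem ttot_bdd (hJ : ∀ i, 0 ≤ J i) (hd : Disjoint S S') {o o' : V} (ho : o ∈ S)
    (ho' : o' ∈ S') (h0 : ∀ v ∈ S, ψ v = 0) (h1 : ∀ v ∈ S', ψ v = 1) :
    Zww (cexp (EN J s t)) S o S' o' * (∫ θ, cexp (EN J s t) θ ∂(torusHaar V)) ≤
      Real.exp ((∑ i, J i * (Real.pi / 2 * (ψ (s i) - ψ (t i))) ^ 2) / 2) *
        ((∫ θ, cexp (EN J s t) (pin S 0 θ) ∂(torusHaar V)) *
        ∫ θ, cexp (EN J s t) (pin S' 0 θ) ∂(torusHaar V)) := by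
  have hk := kpv_ann (S := S) (S' := S') hJ s t hd
  have hz := Zww_eq (cexp (EN J s t)).continuous (EN_inv J s t).cexp hd ho ho'
  have hge := Aph_ge (J := J) (s := s) (t := t) hJ hd h0 h1 (Real.pi / 2)
  have hzf : 0 < ∫ θ, cexp (EN J s t) θ ∂(torusHaar V) :=
    ipos (cexp (EN J s t)).continuous fun θ => Real.exp_pos _
  set A := Aph (cexp (EN J s t)) S S' with hA
  have hAc : Continuous A := Aph_cont (cexp (EN J s t)).continuous S S'
  have h2 : Zww (cexp (EN J s t)) S o S' o' ≤ A 0 := by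
    rw [hz]
    have hi : Integrable A (AddCircle.haarAddCircle : Measure T) :=
      hAc.integrable_of_hasCompactSupport (HasCompactSupport.of_compactSpace _)
    have h3 := integral_mono hi (integrable_const (A 0))
      fun φ => Aph_le (J := J) (s := s) (t := t) hJ hd h0 h1 φ
    refine h3.trans (le_of_eq ?_)
    simp
  set q := ∑ i, J i * (Real.pi / 2 * (ψ (s i) - ψ (t i))) ^ 2 with hq
  have h5 : A 0 ≤ Real.exp (q / 2) * A hp := by
    have h6 : Real.exp (q / 2) * (Real.exp (-q / 2) * A 0) ≤ Real.exp (q / 2) * A hp :=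
      mul_le_mul_of_nonneg_left hge (Real.exp_pos _).le
    rw [← mul_assoc, ← Real.exp_add, show q / 2 + -q / 2 = 0 by ring, Real.exp_zero, one_mul] at h6
    exact h6
  calc Zww (cexp (EN J s t)) S o S' o' * (∫ θ, cexp (EN J s t) θ ∂(torusHaar V))
      ≤ (Real.exp (q / 2) * A hp) * ∫ θ, cexp (EN J s t) θ ∂(torusHaar V) :=
        mul_le_mul_of_nonneg_right (h2.trans h5) hzf.le
    _ = Real.exp (q / 2) * (A hp * ∫ θ, cexp (EN J s t) θ ∂(torusHaar V)) := by ring
    _ ≤ _ := mul_le_mul_of_nonneg_left hk (Real.exp_pos _).le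

end Vale.Agent.P159.TM.H389
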