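import Vale.Agent.P159.TM.H389.Cut
import Vale.Agent.P159.TM.H389.Bdd
import Vale.Agent.P159.TM.H331.Final

/-!
Row ITTOT, instance: the annulus between a square of side `r` and the boundary of a box at distance
`d ≥ r` has the constant `1 + C (d / r) ^ (-c)`.
-/

open MeasureTheory Filter Topology
open scoped BigOperators

set_option linter.all false

namespace Vale.Agent.P159.TM.H389

open Vale.Agent.P159 Vale.Agent.P159.T1.H42 Vale.Agent.P159.TM.H331

/-- the cut-off on the sites of the box -/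
noncomputable def psiS (N p q r d : ℕ) (v : St N) : ℝ := prf r d (dsv p q r v.1.1 v.2.1)

lemma dsv_comm (p q r i j : ℕ) : dsv p q r i j = dsv q p r j i := max_comm _ _

/-- energy over all bonds -/
lemma en_all {N p q r d : ℕ} (hr : 1 ≤ r) (hd : 1 ≤ d) (hp : p ≤ N + 1) (hq : q ≤ N + 1) :
    ∑ e : Bd N, (psiS N p q r d (bs e) - psiS N p q r d (bt e)) ^ 2 ≤
      8 * (1 + Real.log (((r : ℝ) + d) / r)) / Real.log (((r : ℝ) + d) / r) ^ 2 := by
  rw [Fintype.sum_sum_type]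
  have h1 : ∑ e : Fin (N + 1) × Fin (N + 2),
      (psiS N p q r d (bs (Sum.inl e : Bd N)) - psiS N p q r d (bt (Sum.inl e : Bd N))) ^ 2 ≤
      2 * (2 * (1 + Real.log (((r : ℝ) + d) / r)) / Real.log (((r : ℝ) + d) / r) ^ 2) := by
    rw [Fintype.sum_prod_type]
    exact sum_dir (q := q) (M := N + 2) hr hd hp
  have h2 : ∑ e : Fin (N + 2) × Fin (N + 1),
      (psiS N p q r d (bs (Sum.inr e : Bd N)) - psiS N p q r d (bt (Sum.inr e : Bd N))) ^ 2 ≤
      2 * (2 * (1 + Real.log (((r : ℝ) + d) / r)) / Real.log (((r : ℝ) + d) / r) ^ 2) := by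
    rw [Fintype.sum_prod_type, Finset.sum_comm]
    have h := sum_dir (q := p) (M := N + 2) hr hd hq
    refine le_trans (le_of_eq ?_) h
    refine Finset.sum_congr rfl fun i _ => Finset.sum_congr rfl fun j _ => ?_
    show (prf r d (dsv p q r j.1 i.1) - prf r d (dsv p q r j.1 (i.1 + 1))) ^ 2 = _
    rw [dsv_comm p q, dsv_comm p q]
  calc _ ≤ 2 * (2 * (1 + Real.log (((r : ℝ) + d) / r)) / Real.log (((r : ℝ) + d) / r) ^ 2) +
        2 * (2 * (1 + Real.log (((r : ℝ) + d) / r)) / Real.log (((r : ℝ) + d) / r) ^ 2) :=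
        add_le_add h1 h2
    _ = _ := by ring

lemma step_sq {r d : ℕ} (hr : 1 ≤ r) (hd : 1 ≤ d) (k : ℕ) :
    (prf r d (k + 1) - prf r d k) ^ 2 ≤ (1 / Real.log (((r : ℝ) + d) / r)) ^ 2 := by
  have hr1 : (1 : ℝ) ≤ r := by exact_mod_cast hr
  have hk : (0 : ℝ) ≤ k := Nat.cast_nonneg k
  have hL := logL_pos hr hd
  have h2 := prf_step hr hd k
  have h3 : 0 ≤ prf r d (k + 1) - prf r d k := sub_nonneg.2 (prf_mono hr hd (Nat.le_succ k))
  refine pow_le_pow_left₀ h3 (h2.trans ?_) 2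
  refine one_div_le_one_div_of_le hL ?_
  nlinarith

lemma edge_bd {r d : ℕ} (hr : 1 ≤ r) (hd : 1 ≤ d) (p q i j : ℕ) :
    (prf r d (dsv p q r i j) - prf r d (dsv p q r (i + 1) j)) ^ 2 ≤
      (1 / Real.log (((r : ℝ) + d) / r)) ^ 2 := by
  refine (edge_sq r d p q i j).trans ?_
  have h0 : (0 : ℝ) ≤ (1 / Real.log (((r : ℝ) + d) / r)) ^ 2 := sq_nonneg _
  by_cases h1 : i < p
  · have h2 : ¬ p + r ≤ i := by omega
    rw [if_pos h1, if_neg h2, add_zero]
    split_ifs
    · exact step_sq hr hd _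
    · exact h0
  · rw [if_neg h1, zero_add]
    split_ifs
    · exact step_sq hr hd _
    · exact h0
    · exact h0

lemma bond_bd {N p q r d : ℕ} (hr : 1 ≤ r) (hd : 1 ≤ d) (e : Bd N) :
    |psiS N p q r d (bs e) - psiS N p q r d (bt e)| ≤ 1 / Real.log (((r : ℝ) + d) / r) := by
  have hL := logL_pos hr hd
  refine abs_le_of_sq_le_sq ?_ (by positivity)
  rcases e with e | e
  · exact edge_bd hr hd p q e.1.1 e.2.1
  · have h := edge_bd hr hd q p e.2.1 e.1.1
    show (prf r d (dsv p q r e.1.1 e.2.1) - prf r d (dsv p q r e.1.1 (e.2.1 + 1))) ^ 2 ≤ _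
    rw [dsv_comm p q, dsv_comm p q]
    exact h

lemma cosh_sub_one_le {x : ℝ} (hx : |x| ≤ 1) : Real.cosh x - 1 ≤ x ^ 2 := by
  have h1 := Real.cosh_le_exp_half_sq x
  have hx2 : x ^ 2 ≤ 1 := by
    rw [← sq_abs]
    exact pow_le_one₀ (abs_nonneg x) hx
  have h2 := Real.exp_bound_div_one_sub_of_interval (x := x ^ 2 / 2) (by positivity)
    (by linarith)
  have h3 : 1 / (1 - x ^ 2 / 2) ≤ 1 + x ^ 2 := by
    rw [div_le_iff₀ (by linarith)]
    nlinarith [sq_nonneg x]
  linarith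

section inst

variable {N p q r d : ℕ} {b : ℝ}

/-- energy over the bonds of the annulus -/
lemma en_ann (hr : 1 ≤ r) (hd : 1 ≤ d) (hp : p ≤ N + 1) (hq : q ≤ N + 1) :
    ∑ e : {e : Bd N // ¬ inP p q r e},
      (psiS N p q r d (bs e.1) - psiS N p q r d (bt e.1)) ^ 2 ≤
      8 * (1 + Real.log (((r : ℝ) + d) / r)) / Real.log (((r : ℝ) + d) / r) ^ 2 := by
  refine le_trans ?_ (en_all (N := N) hr hd hp hq)
  rw [← Finset.sum_subtype (Finset.univ.filter fun e : Bd N => ¬ inP p q r e) (by simp)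
    fun e => (psiS N p q r d (bs e) - psiS N p q r d (bt e)) ^ 2]
  exact Finset.sum_le_sum_of_subset_of_nonneg (Finset.filter_subset _ _)
    fun e _ _ => sq_nonneg _

lemma Ecost_le (hb : 0 ≤ b) (hr : 1 ≤ r) (hd : 1 ≤ d) (hp : p ≤ N + 1) (hq : q ≤ N + 1)
    {κ : ℝ} (hκ : 0 ≤ κ) (hκ1 : κ ≤ 1) :
    Ecost (fun _ : {e : Bd N // ¬ inP p q r e} => b) (fun e => bs e.1) (fun e => bt e.1)
      (psiS N p q r d) (κ * Real.log (((r : ℝ) + d) / r)) ≤
      8 * b * κ ^ 2 * (1 + Real.log (((r : ℝ) + d) / r)) := by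
  have hL := logL_pos hr hd
  have he := en_ann (N := N) (p := p) (q := q) hr hd hp hq
  set L := Real.log (((r : ℝ) + d) / r) with hLd
  unfold Ecost
  have h1 : ∀ e : {e : Bd N // ¬ inP p q r e},
      b * (Real.cosh (κ * L * (psiS N p q r d (bs e.1) - psiS N p q r d (bt e.1))) - 1) ≤
      (b * κ ^ 2 * L ^ 2) * (psiS N p q r d (bs e.1) - psiS N p q r d (bt e.1)) ^ 2 := by
    intro e
    have h2 := bond_bd (N := N) (p := p) (q := q) hr hd e.1
    rw [← hLd] at h2
    have h3 : |κ * L * (psiS N p q r d (bs e.1) - psiS N p q r d (bt e.1))| ≤ 1 := by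
      rw [abs_mul, abs_of_nonneg (by positivity : (0 : ℝ) ≤ κ * L)]
      calc κ * L * |psiS N p q r d (bs e.1) - psiS N p q r d (bt e.1)|
          ≤ κ * L * (1 / L) := mul_le_mul_of_nonneg_left h2 (by positivity)
        _ = κ := by field_simp
        _ ≤ 1 := hκ1
    have h4 := mul_le_mul_of_nonneg_left (cosh_sub_one_le h3) hb
    refine h4.trans (le_of_eq ?_)
    ring
  refine (Finset.sum_le_sum fun e _ => h1 e).trans ?_
  rw [← Finset.mul_sum]
  calc (b * κ ^ 2 * L ^ 2) * ∑ e : {e : Bd N // ¬ inP p q r e},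
        (psiS N p q r d (bs e.1) - psiS N p q r d (bt e.1)) ^ 2
      ≤ (b * κ ^ 2 * L ^ 2) * (8 * (1 + L) / L ^ 2) :=
        mul_le_mul_of_nonneg_left he (by positivity)
    _ = 8 * b * κ ^ 2 * (1 + L) := by field_simp

lemma psi_sq (hr : 1 ≤ r) {v : St N} (hv : v ∈ sqS N p q r) : psiS N p q r d v = 0 := by
  obtain ⟨⟨h1, h2⟩, h3, h4⟩ := hv
  unfold psiS
  have e : dsv p q r v.1.1 v.2.1 = 0 := by
    unfold dsv dst
    omega
  rw [e, prf_zero hr]

lemma psi_ring (hr : 1 ≤ r) (hd : 1 ≤ d) (hp : d ≤ p) (hq : d ≤ q) (hp' : p + r + d ≤ N + 1)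
    (hq' : q + r + d ≤ N + 1) {v : St N} (hv : v ∈ ringS N) : psiS N p q r d v = 1 := by
  unfold psiS
  refine prf_one hr hd ?_
  unfold dsv dst
  rcases hv with h | h | h | h <;> omega

lemma sq_ring_disj (hd : 1 ≤ d) (hp : d ≤ p) (hq : d ≤ q) (hp' : p + r + d ≤ N + 1)
    (hq' : q + r + d ≤ N + 1) : Disjoint (sqS N p q r) (ringS N) := by
  rw [Set.disjoint_left]
  rintro v ⟨⟨h1, h2⟩, h3, h4⟩ hv
  rcases hv with h | h | h | h <;> omega

lemma two_le_ratio (hr : 1 ≤ r) (hrd : r ≤ d) : Real.log 2 ≤ Real.log (((r : ℝ) + d) / r) := by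
  have hr' : (0 : ℝ) < r := by exact_mod_cast hr
  have hd' : (r : ℝ) ≤ d := by exact_mod_cast hrd
  refine Real.log_le_log (by norm_num) ?_
  rw [le_div_iff₀ hr']
  linarith

end inst

/-- **(TTOT) for the annulus between a square and the boundary of the box** -/
theorem annk {b : ℝ} (hb : 0 ≤ b) : ∃ C c : ℝ, 0 < C ∧ 0 < c ∧ ∀ N p q r d : ℕ, 1 ≤ r → r ≤ d →
    d ≤ p → d ≤ q → p + r + d ≤ N + 1 → q + r + d ≤ N + 1 →
    AnnK N b p q r (1 + C * ((d : ℝ) / r) ^ (-c)) := by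
  set κ : ℝ := 1 / (16 * b + 1) with hκ
  have hκ0 : 0 < κ := by positivity
  have hκ1 : κ ≤ 1 := by
    rw [hκ, div_le_one (by positivity)]
    linarith
  have hκb : 8 * b * κ ^ 2 ≤ κ / 2 := by
    have h1 : 16 * b * κ ≤ 1 := by
      rw [hκ, mul_one_div, div_le_one (by positivity)]
      linarith
    nlinarith
  have hl2 : 0 < Real.log 2 := Real.log_pos (by norm_num)
  set δ : ℝ := 1 - Real.exp (-(κ * Real.log 2)) with hδ
  have hδ0 : 0 < δ := by
    rw [hδ, sub_pos, Real.exp_lt_one_iff]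
    nlinarith
  set C2 : ℝ := 2 * Real.exp (κ / 2) / δ with hC2
  have hC20 : 0 < C2 := by positivity
  set m : ℝ := 1 / Real.log 2 with hm
  have hm0 : 0 < m := by positivity
  set K0 : ℝ := Real.exp (Real.pi ^ 2 * b * (m ^ 2 + m)) with hK0
  have hK00 : 0 < K0 := Real.exp_pos _
  refine ⟨(2 + 2 * K0) * C2, κ / 2, by positivity, by positivity, ?_⟩
  intro N p q r d hr hrd hdp hdq hp' hq'
  have hd : 1 ≤ d := hr.trans hrd
  have hr' : (0 : ℝ) < r := by exact_mod_cast hr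
  have hd' : (0 : ℝ) < d := by exact_mod_cast hd
  have hL := logL_pos hr hd
  have hL2 := two_le_ratio hr hrd
  have hpN : p ≤ N + 1 := by omega
  have hqN : q ≤ N + 1 := by omega
  have hE := Ecost_le (N := N) (p := p) (q := q) hb hr hd hpN hqN hκ0.le hκ1
  have hen := en_ann (N := N) (p := p) (q := q) hr hd hpN hqN
  set L := Real.log (((r : ℝ) + d) / r) with hLd
  -- the two sites
  refine ⟨(⟨p, by omega⟩, ⟨q, by omega⟩), (⟨0, by omega⟩, ⟨0, by omega⟩), ?_, ?_, ?_⟩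
  · exact ⟨⟨le_rfl, Nat.le_add_right _ _⟩, le_rfl, Nat.le_add_right _ _⟩
  · exact Or.inl rfl
  have hdj : Disjoint (sqS N p q r) (ringS N) := sq_ring_disj hd hdp hdq hp' hq'
  have h0 : ∀ v ∈ sqS N p q r, psiS N p q r d v = 0 := fun v hv => psi_sq hr hv
  have h1 : ∀ v ∈ ringS N, psiS N p q r d v = 1 := fun v hv =>
    psi_ring hr hd hdp hdq hp' hq' hv
  have hJ : ∀ e : {e : Bd N // ¬ inP p q r e}, (0 : ℝ) ≤ (fun _ => b) e := fun _ => hb
  have ho : ((⟨p, by omega⟩, ⟨q, by omega⟩) : St N) ∈ sqS N p q r :=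
    ⟨⟨le_rfl, Nat.le_add_right _ _⟩, le_rfl, Nat.le_add_right _ _⟩
  have ho' : ((⟨0, by omega⟩, ⟨0, by omega⟩) : St N) ∈ ringS N := Or.inl rfl
  set X := (∫ θ, ann N b p q r (pin (sqS N p q r) 0 θ) ∂(torusHaar (St N))) *
        ∫ θ, ann N b p q r (pin (ringS N) 0 θ) ∂(torusHaar (St N)) with hX
  have hX0 : 0 ≤ X := mul_nonneg
    (ipos ((ann N b p q r).continuous.comp (pin_cont _ 0)) fun θ => Real.exp_pos _).le
    (ipos ((ann N b p q r).continuous.comp (pin_cont _ 0)) fun θ => Real.exp_pos _).le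
  -- the ratio
  set ρ : ℝ := C2 * ((d : ℝ) / r) ^ (-(κ / 2)) with hρ
  have hρ0 : 0 < ρ := by positivity
  have hgoal : ∀ K : ℝ, K ≤ 1 + (2 + 2 * K0) * ρ →
      Zww (ann N b p q r) (sqS N p q r) (⟨p, by omega⟩, ⟨q, by omega⟩) (ringS N)
        (⟨0, by omega⟩, ⟨0, by omega⟩) * (∫ θ, ann N b p q r θ ∂(torusHaar (St N))) ≤ K * X →
      Zww (ann N b p q r) (sqS N p q r) (⟨p, by omega⟩, ⟨q, by omega⟩) (ringS N)
        (⟨0, by omega⟩, ⟨0, by omega⟩) * (∫ θ, ann N b p q r θ ∂(torusHaar (St N))) ≤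
        (1 + (2 + 2 * K0) * C2 * ((d : ℝ) / r) ^ (-(κ / 2))) * X := by
    intro K hK h
    refine h.trans (mul_le_mul_of_nonneg_right (hK.trans (le_of_eq ?_)) hX0)
    rw [hρ]
    ring
  rcases le_or_gt ρ (1 / 2) with hc | hc
  · -- small ratio
    have hτ : 0 < κ * L := by positivity
    have hr0 : 2 * Real.exp (Ecost (fun _ : {e : Bd N // ¬ inP p q r e} => b)
        (fun e => bs e.1) (fun e => bt e.1) (psiS N p q r d) (κ * L) - κ * L) /
        (1 - Real.exp (-(κ * L))) ≤ ρ := by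
      have e1 : Real.exp (Ecost (fun _ : {e : Bd N // ¬ inP p q r e} => b)
          (fun e => bs e.1) (fun e => bt e.1) (psiS N p q r d) (κ * L) - κ * L) ≤
          Real.exp (κ / 2) * Real.exp (-(κ / 2) * L) := by
        rw [← Real.exp_add]
        refine Real.exp_le_exp.2 ?_
        have h5 : 8 * b * κ ^ 2 * (1 + L) ≤ κ / 2 * (1 + L) :=
          mul_le_mul_of_nonneg_right hκb (by positivity)
        linarith
      have e2 : Real.exp (-(κ / 2) * L) ≤ ((d : ℝ) / r) ^ (-(κ / 2)) := by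
        have h5 : Real.exp (-(κ / 2) * L) = (((r : ℝ) + d) / r) ^ (-(κ / 2)) := by
          rw [Real.rpow_def_of_pos (by positivity), hLd]
          congr 1
          ring
        rw [h5]
        refine Real.rpow_le_rpow_of_nonpos (by positivity) ?_ (by linarith)
        gcongr
        linarith
      have e3 : δ ≤ 1 - Real.exp (-(κ * L)) := by
        rw [hδ]
        have : Real.exp (-(κ * L)) ≤ Real.exp (-(κ * Real.log 2)) :=
          Real.exp_le_exp.2 (by nlinarith)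
        linarith
      calc _ ≤ 2 * (Real.exp (κ / 2) * ((d : ℝ) / r) ^ (-(κ / 2))) /
            (1 - Real.exp (-(κ * L))) := by
            refine div_le_div_of_nonneg_right ?_ (hδ0.le.trans e3)
            refine mul_le_mul_of_nonneg_left (e1.trans ?_) (by norm_num)
            exact mul_le_mul_of_nonneg_left e2 (Real.exp_pos _).le
        _ ≤ 2 * (Real.exp (κ / 2) * ((d : ℝ) / r) ^ (-(κ / 2))) / δ := by
            refine div_le_div_of_nonneg_left (by positivity) hδ0 e3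
        _ = ρ := by
            rw [hρ, hC2]
            ring
    have h := ttot (s := fun e : {e : Bd N // ¬ inP p q r e} => bs e.1)
      (t := fun e => bt e.1) (ψ := psiS N p q r d) hJ hdj ho ho' h0 h1 hτ hr0 (by linarith)
    refine hgoal (1 - ρ)⁻¹ ?_ h
    have h6 : (1 - ρ)⁻¹ ≤ 1 + 2 * ρ := by
      rw [inv_le_iff_one_le_mul₀ (by linarith)]
      nlinarith
    nlinarith [mul_pos hK00 hρ0]
  · -- bounded ratio
    have h := ttot_bdd (s := fun e : {e : Bd N // ¬ inP p q r e} => bs e.1)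
      (t := fun e => bt e.1) (ψ := psiS N p q r d) hJ hdj ho ho' h0 h1
    refine hgoal K0 ?_ (h.trans (mul_le_mul_of_nonneg_right ?_ hX0))
    · nlinarith
    · rw [hK0]
      refine Real.exp_le_exp.2 ?_
      have e1 : ∑ e : {e : Bd N // ¬ inP p q r e}, b * (Real.pi / 2 *
          (psiS N p q r d (bs e.1) - psiS N p q r d (bt e.1))) ^ 2 =
          (b * (Real.pi / 2) ^ 2) * ∑ e : {e : Bd N // ¬ inP p q r e},
            (psiS N p q r d (bs e.1) - psiS N p q r d (bt e.1)) ^ 2 := by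
        rw [Finset.mul_sum]
        refine Finset.sum_congr rfl fun e _ => ?_
        ring
      have e2 : 8 * (1 + L) / L ^ 2 ≤ 8 * (m ^ 2 + m) := by
        have h7 : 1 / L ≤ m := by
          rw [hm]
          exact one_div_le_one_div_of_le hl2 hL2
        have h8 : (1 / L) ^ 2 ≤ m ^ 2 := pow_le_pow_left₀ (by positivity) h7 2
        have h9 : 8 * (1 + L) / L ^ 2 = 8 * ((1 / L) ^ 2 + 1 / L) := by
          field_simp
        rw [h9]
        linarith
      have e3 : (∑ e : {e : Bd N // ¬ inP p q r e}, b * (Real.pi / 2 *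
          (psiS N p q r d (bs e.1) - psiS N p q r d (bt e.1))) ^ 2) / 2 ≤
          Real.pi ^ 2 * b * (m ^ 2 + m) := by
        rw [e1]
        calc (b * (Real.pi / 2) ^ 2) * (∑ e : {e : Bd N // ¬ inP p q r e},
              (psiS N p q r d (bs e.1) - psiS N p q r d (bt e.1)) ^ 2) / 2
            ≤ (b * (Real.pi / 2) ^ 2) * (8 * (m ^ 2 + m)) / 2 := by
              refine div_le_div_of_nonneg_right ?_ (by norm_num)
              exact mul_le_mul_of_nonneg_left (hen.trans e2) (by positivity)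
          _ = Real.pi ^ 2 * b * (m ^ 2 + m) := by ring
      exact e3

end Vale.Agent.P159.TM.H389
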