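import Vale.Agent.P159.TM.H331.Isand

/-!
Row ITTOT: the logarithmic cut-off between a square and the boundary of a box (sup distance).
-/

open MeasureTheory Filter Topology
open scoped BigOperators

set_option linter.all false

namespace Vale.Agent.P159.TM.H389

open Vale.Agent.P159 Vale.Agent.P159.TM.H331

/-! ### one variable -/

/-- the profile -/
noncomputable def prf (r d k : ℕ) : ℝ :=
  min 1 (Real.log (((r : ℝ) + k) / r) / Real.log (((r : ℝ) + d) / r))

section prf

variable {r d : ℕ}

lemma logL_pos (hr : 1 ≤ r) (hd : 1 ≤ d) : 0 < Real.log (((r : ℝ) + d) / r) := by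
  have hr' : (0 : ℝ) < r := by exact_mod_cast hr
  have hd' : (0 : ℝ) < d := by exact_mod_cast hd
  refine Real.log_pos ?_
  rw [lt_div_iff₀ hr']
  linarith

lemma log_mono' (hr : 1 ≤ r) {j k : ℕ} (h : j ≤ k) :
    Real.log (((r : ℝ) + j) / r) ≤ Real.log (((r : ℝ) + k) / r) := by
  have hr' : (0 : ℝ) < r := by exact_mod_cast hr
  have hj : (0 : ℝ) ≤ j := Nat.cast_nonneg j
  have hk : (j : ℝ) ≤ k := by exact_mod_cast h
  refine Real.log_le_log (by positivity) ?_
  gcongr

lemma prf_zero (hr : 1 ≤ r) : prf r d 0 = 0 := by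
  have hr' : (0 : ℝ) < r := by exact_mod_cast hr
  unfold prf
  simp [hr'.ne']

lemma prf_one (hr : 1 ≤ r) (hd : 1 ≤ d) {k : ℕ} (h : d ≤ k) : prf r d k = 1 := by
  unfold prf
  refine min_eq_left ?_
  rw [le_div_iff₀ (logL_pos hr hd), one_mul]
  exact log_mono' hr h

lemma prf_mono (hr : 1 ≤ r) (hd : 1 ≤ d) {j k : ℕ} (h : j ≤ k) : prf r d j ≤ prf r d k := by
  unfold prf
  refine min_le_min le_rfl ?_
  exact div_le_div_of_nonneg_right (log_mono' hr h) (logL_pos hr hd).le

/-- the increments -/
lemma prf_step (hr : 1 ≤ r) (hd : 1 ≤ d) (k : ℕ) :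
    prf r d (k + 1) - prf r d k ≤ 1 / (((r : ℝ) + k) * Real.log (((r : ℝ) + d) / r)) := by
  have hr' : (0 : ℝ) < r := by exact_mod_cast hr
  have hk : (0 : ℝ) ≤ k := Nat.cast_nonneg k
  have hL := logL_pos hr hd
  set L := Real.log (((r : ℝ) + d) / r) with hLd
  have h1 : prf r d (k + 1) - prf r d k ≤
      Real.log (((r : ℝ) + ((k + 1 : ℕ) : ℝ)) / r) / L - Real.log (((r : ℝ) + k) / r) / L := by
    unfold prf
    rw [← hLd]
    have h2 : Real.log (((r : ℝ) + k) / r) / L ≤
        Real.log (((r : ℝ) + ((k + 1 : ℕ) : ℝ)) / r) / L :=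
      div_le_div_of_nonneg_right (log_mono' hr (Nat.le_succ k)) hL.le
    rcases le_total 1 (Real.log (((r : ℝ) + k) / r) / L) with h3 | h3
    · rw [min_eq_left h3, min_eq_left (h3.trans h2)]
      linarith
    · rw [min_eq_right h3]
      have := min_le_right (1 : ℝ) (Real.log (((r : ℝ) + ((k + 1 : ℕ) : ℝ)) / r) / L)
      linarith
  refine h1.trans ?_
  rw [← sub_div, ← Real.log_div (by positivity) (by positivity)]
  have h4 : (((r : ℝ) + ((k + 1 : ℕ) : ℝ)) / r) / (((r : ℝ) + k) / r) =
      1 + 1 / ((r : ℝ) + k) := by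
    push_cast
    field_simp
    ring
  rw [h4, ← div_div]
  refine div_le_div_of_nonneg_right ?_ hL.le
  have h5 := Real.log_le_sub_one_of_pos (show (0 : ℝ) < 1 + 1 / ((r : ℝ) + k) by positivity)
  linarith

lemma sum_inv (hr : 1 ≤ r) (d : ℕ) :
    ∑ k ∈ Finset.range d, 1 / ((r : ℝ) + k) ≤ 1 + Real.log (((r : ℝ) + d) / r) := by
  have hr' : (0 : ℝ) < r := by exact_mod_cast hr
  have hr1 : (1 : ℝ) ≤ r := by exact_mod_cast hr
  have key : ∀ d : ℕ, ∑ k ∈ Finset.range (d + 1), 1 / ((r : ℝ) + k) ≤
      1 + Real.log (((r : ℝ) + d) / r) := by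
    intro d
    induction d with
    | zero =>
      simp only [zero_add, Finset.range_one, Finset.sum_singleton, Nat.cast_zero, add_zero]
      rw [div_self hr'.ne', Real.log_one, add_zero]
      rw [div_le_one hr']
      exact hr1
    | succ d ih =>
      rw [Finset.sum_range_succ]
      have hd : (0 : ℝ) ≤ d := Nat.cast_nonneg d
      have h1 : 1 / ((r : ℝ) + ((d + 1 : ℕ) : ℝ)) ≤
          Real.log (((r : ℝ) + ((d + 1 : ℕ) : ℝ)) / r) - Real.log (((r : ℝ) + d) / r) := by
        rw [← Real.log_div (by positivity) (by positivity)]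
        have h4 : (((r : ℝ) + ((d + 1 : ℕ) : ℝ)) / r) / (((r : ℝ) + d) / r) =
            ((r : ℝ) + ((d + 1 : ℕ) : ℝ)) / ((r : ℝ) + d) := by
          field_simp
        rw [h4]
        have h5 := Real.one_sub_inv_le_log_of_pos
          (show (0 : ℝ) < ((r : ℝ) + ((d + 1 : ℕ) : ℝ)) / ((r : ℝ) + d) by positivity)
        refine le_trans (le_of_eq ?_) h5
        rw [inv_div]
        push_cast
        have : (r : ℝ) + (d + 1) ≠ 0 := by positivity
        field_simp
        ring
      linarith
  cases d with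
  | zero =>
    simp only [Finset.range_zero, Finset.sum_empty, Nat.cast_zero, add_zero]
    rw [div_self hr'.ne', Real.log_one]
    norm_num
  | succ d =>
    refine (key d).trans ?_
    have := log_mono' hr (Nat.le_succ d)
    linarith

/-- the one dimensional energy sum -/
lemma sum_H (hr : 1 ≤ r) (hd : 1 ≤ d) :
    ∑ k ∈ Finset.range d, ((r : ℝ) + 1 + 2 * k) * (prf r d (k + 1) - prf r d k) ^ 2 ≤
      2 * (1 + Real.log (((r : ℝ) + d) / r)) / Real.log (((r : ℝ) + d) / r) ^ 2 := by
  have hr' : (0 : ℝ) < r := by exact_mod_cast hr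
  have hr1 : (1 : ℝ) ≤ r := by exact_mod_cast hr
  have hL := logL_pos hr hd
  have hs := sum_inv hr d
  set L := Real.log (((r : ℝ) + d) / r) with hLd
  have h1 : ∀ k ∈ Finset.range d, ((r : ℝ) + 1 + 2 * k) * (prf r d (k + 1) - prf r d k) ^ 2 ≤
      (2 / L ^ 2) * (1 / ((r : ℝ) + k)) := by
    intro k _
    have hk : (0 : ℝ) ≤ k := Nat.cast_nonneg k
    have h2 := prf_step hr hd k
    rw [← hLd] at h2
    have h3 : 0 ≤ prf r d (k + 1) - prf r d k := sub_nonneg.2 (prf_mono hr hd (Nat.le_succ k))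
    have h4 : (prf r d (k + 1) - prf r d k) ^ 2 ≤ (1 / (((r : ℝ) + k) * L)) ^ 2 :=
      pow_le_pow_left₀ h3 h2 2
    calc ((r : ℝ) + 1 + 2 * k) * (prf r d (k + 1) - prf r d k) ^ 2
        ≤ (2 * ((r : ℝ) + k)) * (1 / (((r : ℝ) + k) * L)) ^ 2 :=
          mul_le_mul (by linarith) h4 (sq_nonneg _) (by positivity)
      _ = (2 / L ^ 2) * (1 / ((r : ℝ) + k)) := by
          field_simp
  refine (Finset.sum_le_sum h1).trans ?_
  rw [← Finset.mul_sum]
  calc (2 / L ^ 2) * ∑ k ∈ Finset.range d, 1 / ((r : ℝ) + k)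
      ≤ (2 / L ^ 2) * (1 + L) := mul_le_mul_of_nonneg_left hs (by positivity)
    _ = 2 * (1 + L) / L ^ 2 := by ring

end prf

/-! ### counting -/

/-- distance from `[p, p + r]` -/
def dst (p r i : ℕ) : ℕ := max (p - i) (i - (p + r))

lemma count_j (q r k M : ℕ) :
    ∑ j : Fin M, (if dst q r j.1 ≤ k then (1 : ℝ) else 0) ≤ (r : ℝ) + 1 + 2 * k := by
  rw [← Finset.sum_filter, Finset.sum_const, nsmul_eq_mul, mul_one]
  have h : ((Finset.univ : Finset (Fin M)).filter (fun j => dst q r j.1 ≤ k)).card ≤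
      (Finset.Icc (q - k) (q + r + k)).card := by
    refine Finset.card_le_card_of_injOn (fun j => j.1) ?_ ?_
    · intro j hj
      have hj' : dst q r j.1 ≤ k := (Finset.mem_filter.1 hj).2
      unfold dst at hj'
      simp only [Finset.coe_Icc, Set.mem_Icc]
      omega
    · intro a _ b _ hab
      exact Fin.ext hab
  rw [Nat.card_Icc] at h
  have h2 : ((Finset.univ : Finset (Fin M)).filter (fun j => dst q r j.1 ≤ k)).card ≤
      r + 1 + 2 * k := by omega
  exact_mod_cast h2

lemma sum_i {H : ℕ → ℝ} (h0 : ∀ k, 0 ≤ H k) {d : ℕ} (hH : ∀ k, d ≤ k → H k = 0) {p r N : ℕ}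
    (hp : p ≤ N + 1) :
    ∑ i : Fin (N + 1), ((if i.1 < p then H (p - 1 - i.1) else 0) +
      (if p + r ≤ i.1 then H (i.1 - (p + r)) else 0)) ≤ 2 * ∑ k ∈ Finset.range d, H k := by
  have hle : ∀ M : ℕ, ∑ k ∈ Finset.range M, H k ≤ ∑ k ∈ Finset.range d, H k := by
    intro M
    rcases le_total M d with h | h
    · exact Finset.sum_le_sum_of_subset_of_nonneg (Finset.range_mono h) fun k _ _ => h0 k
    · refine le_of_eq ?_
      rw [← Finset.sum_subset (Finset.range_mono h)]
      intro k _ hk
      exact hH k (by simpa using hk)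
  rw [Finset.sum_add_distrib, two_mul]
  refine add_le_add ?_ ?_
  · rw [Fin.sum_univ_eq_sum_range (fun i => if i < p then H (p - 1 - i) else 0) (N + 1),
      ← Finset.sum_filter]
    have e : (Finset.range (N + 1)).filter (fun i => i < p) = Finset.range p := by
      ext i
      simp only [Finset.mem_filter, Finset.mem_range]
      omega
    rw [e, Finset.sum_range_reflect]
    exact hle p
  · rw [Fin.sum_univ_eq_sum_range (fun i => if p + r ≤ i then H (i - (p + r)) else 0) (N + 1),
      ← Finset.sum_filter]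
    have e : (Finset.range (N + 1)).filter (fun i => p + r ≤ i) = Finset.Ico (p + r) (N + 1) := by
      ext i
      simp only [Finset.mem_filter, Finset.mem_range, Finset.mem_Ico]
      omega
    rw [e, Finset.sum_Ico_eq_sum_range]
    have e2 : ∀ k, p + r + k - (p + r) = k := fun k => by omega
    simp only [e2]
    exact hle _

/-- the distance of a site from the square -/
def dsv (p q r i j : ℕ) : ℕ := max (dst p r i) (dst q r j)

/-- one edge -/
lemma edge_sq (r d p q i j : ℕ) :
    (prf r d (dsv p q r i j) - prf r d (dsv p q r (i + 1) j)) ^ 2 ≤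
      (if i < p then (if dst q r j ≤ p - 1 - i then
        (prf r d (p - 1 - i + 1) - prf r d (p - 1 - i)) ^ 2 else 0) else 0) +
      (if p + r ≤ i then (if dst q r j ≤ i - (p + r) then
        (prf r d (i - (p + r) + 1) - prf r d (i - (p + r))) ^ 2 else 0) else 0) := by
  by_cases h1 : i < p
  · have h2 : ¬ p + r ≤ i := by omega
    rw [if_pos h1, if_neg h2, add_zero]
    have e1 : dst p r i = p - 1 - i + 1 := by unfold dst; omega
    have e2 : dst p r (i + 1) = p - 1 - i := by unfold dst; omega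
    unfold dsv
    rw [e1, e2]
    by_cases h3 : dst q r j ≤ p - 1 - i
    · rw [if_pos h3, max_eq_left (by omega), max_eq_left h3]
    · rw [if_neg h3, max_eq_right (by omega), max_eq_right (by omega), sub_self]
      norm_num
  · rw [if_neg h1, zero_add]
    by_cases h2 : p + r ≤ i
    · rw [if_pos h2]
      have e1 : dst p r i = i - (p + r) := by unfold dst; omega
      have e2 : dst p r (i + 1) = i - (p + r) + 1 := by unfold dst; omega
      unfold dsv
      rw [e1, e2]
      by_cases h3 : dst q r j ≤ i - (p + r)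
      · rw [if_pos h3, max_eq_left h3, max_eq_left (by omega)]
        refine le_of_eq ?_
        ring
      · rw [if_neg h3, max_eq_right (by omega), max_eq_right (by omega), sub_self]
        norm_num
    · rw [if_neg h2]
      have e1 : dst p r i = 0 := by unfold dst; omega
      have e2 : dst p r (i + 1) = 0 := by unfold dst; omega
      unfold dsv
      rw [e1, e2, sub_self]
      norm_num

/-- the energy of the cut-off in one direction -/
lemma sum_dir {r d p q N M : ℕ} (hr : 1 ≤ r) (hd : 1 ≤ d) (hp : p ≤ N + 1) :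
    ∑ i : Fin (N + 1), ∑ j : Fin M,
      (prf r d (dsv p q r i.1 j.1) - prf r d (dsv p q r (i.1 + 1) j.1)) ^ 2 ≤
      2 * (2 * (1 + Real.log (((r : ℝ) + d) / r)) / Real.log (((r : ℝ) + d) / r) ^ 2) := by
  set H : ℕ → ℝ := fun k => ((r : ℝ) + 1 + 2 * k) * (prf r d (k + 1) - prf r d k) ^ 2 with hH
  have H0 : ∀ k, 0 ≤ H k := fun k => by
    simp only [hH]
    positivity
  have Hd : ∀ k, d ≤ k → H k = 0 := by
    intro k hk
    simp only [hH]
    rw [prf_one hr hd hk, prf_one hr hd (hk.trans (Nat.le_succ k))]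
    ring
  have h1 : ∀ i : Fin (N + 1), ∑ j : Fin M,
      (prf r d (dsv p q r i.1 j.1) - prf r d (dsv p q r (i.1 + 1) j.1)) ^ 2 ≤
      (if i.1 < p then H (p - 1 - i.1) else 0) +
      (if p + r ≤ i.1 then H (i.1 - (p + r)) else 0) := by
    intro i
    refine (Finset.sum_le_sum fun j _ => edge_sq r d p q i.1 j.1).trans ?_
    rw [Finset.sum_add_distrib]
    have hc : ∀ k : ℕ, ∑ j : Fin M, (if dst q r j.1 ≤ k then
        (prf r d (k + 1) - prf r d k) ^ 2 else 0) ≤ H k := by
      intro k
      have e : ∀ j : Fin M, (if dst q r j.1 ≤ k then (prf r d (k + 1) - prf r d k) ^ 2 else 0) =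
          (if dst q r j.1 ≤ k then (1 : ℝ) else 0) * (prf r d (k + 1) - prf r d k) ^ 2 := by
        intro j
        split_ifs <;> ring
      simp_rw [e]
      rw [← Finset.sum_mul]
      exact mul_le_mul_of_nonneg_right (count_j q r k M) (sq_nonneg _)
    refine add_le_add ?_ ?_
    · by_cases h : i.1 < p
      · simp only [if_pos h]
        exact hc _
      · simp only [if_neg h]
        simp
    · by_cases h : p + r ≤ i.1
      · simp only [if_pos h]
        exact hc _
      · simp only [if_neg h]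
        simp
  refine (Finset.sum_le_sum fun i _ => h1 i).trans ?_
  refine (sum_i H0 Hd hp).trans ?_
  exact mul_le_mul_of_nonneg_left (sum_H hr hd) (by norm_num)

end Vale.Agent.P159.TM.H389
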