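import Vale.Agent.P159.T1.H42.Cone

/-!
Spins on a finite set `V`: the cone of Kunz, Pfister and Vuillermot, pinned spins, independence.
(The same facts as in `T1/H42/{Cone,Pin}.lean`, for a finite set of sites instead of the square
lattice.)
-/

open MeasureTheory Filter Topology
open scoped BigOperators

set_option linter.all false

namespace Vale.Agent.P159.TM.H389

open Vale.Agent.P159 Vale.Agent.P159.T1.H42

variable {V : Type*} [Fintype V]

section spins

/-- the spin at `v` as a character -/
noncomputable def sp (v : V) : Chr (V → T) where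
  c θ := cosT (θ v)
  s θ := sinT (θ v)
  cont_c := cont_cos.comp (continuous_apply v)
  cont_s := cont_sin.comp (continuous_apply v)
  c_add x y := Real.Angle.cos_add _ _
  s_add x y := Real.Angle.sin_add _ _
  norm_sq x := Real.Angle.cos_sq_add_sin_sq _

/-- monomials in the spins -/
noncomputable def mon (a b : V →₀ ℕ) : C(V → T, ℝ) :=
  a.prod (fun v n => cc (sp v) ^ n) * b.prod (fun v n => ss (sp v) ^ n)

lemma mon_mul (a b a' b' : V →₀ ℕ) : mon a b * mon a' b' = mon (a + a') (b + b') := by
  classical
  unfold mon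
  rw [Finsupp.prod_add_index' (fun _ => pow_zero _) (fun _ _ _ => pow_add _ _ _),
    Finsupp.prod_add_index' (fun _ => pow_zero _) (fun _ _ _ => pow_add _ _ _)]
  ring

lemma mon_zero : mon (0 : V →₀ ℕ) 0 = 1 := by
  unfold mon
  simp

lemma mon_c (v : V) : mon (Finsupp.single v 1) 0 = cc (sp v) := by
  unfold mon
  rw [Finsupp.prod_single_index (h := fun v n => cc (sp v) ^ n) (pow_zero _)]
  simp

lemma mon_s (v : V) : mon 0 (Finsupp.single v 1) = ss (sp v) := by
  unfold mon
  rw [Finsupp.prod_single_index (h := fun v n => ss (sp v) ^ n) (pow_zero _)]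
  simp

lemma mon_apply (a b : V →₀ ℕ) (θ : V → T) :
    mon a b θ = (∏ v ∈ a.support, cosT (θ v) ^ a v) * ∏ v ∈ b.support, sinT (θ v) ^ b v := by
  unfold mon Finsupp.prod
  simp [sp]

lemma mon_sign (a b : V →₀ ℕ) (v : V) {θ θ' : V → T} {ε δ : ℝ}
    (hc : ∀ w, w ≠ v → θ' w = θ w) (h1 : cosT (θ' v) = ε * cosT (θ v))
    (h2 : sinT (θ' v) = δ * sinT (θ v)) :
    mon a b θ' = ε ^ a v * δ ^ b v * mon a b θ := by
  classical
  rw [mon_apply, mon_apply]
  have e : ∀ (f : T → ℝ) (r : ℝ) (hr : f (θ' v) = r * f (θ v)) (a : V →₀ ℕ),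
      ∏ w ∈ a.support, f (θ' w) ^ a w = r ^ a v * ∏ w ∈ a.support, f (θ w) ^ a w := by
    intro f r hr a
    have h3 : ∀ w ∈ a.support, f (θ' w) ^ a w = (if w = v then r else 1) ^ a w * f (θ w) ^ a w := by
      intro w _
      by_cases hw : w = v
      · subst hw
        simp [hr, mul_pow]
      · simp [hw, hc w hw]
    rw [Finset.prod_congr rfl h3, Finset.prod_mul_distrib]
    congr 1
    rw [Finset.prod_eq_single v]
    · simp
    · intro w _ hw
      simp [hw]
    · intro hv
      rw [Finsupp.notMem_support_iff] at hv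
      simp [hv]
  rw [e cosT ε h1, e sinT δ h2]
  ring

open Classical in
/-- change the sign of one spin -/
noncomputable def flipv (v : V) : (V → T) →+ (V → T) where
  toFun θ := fun w => if w = v then -θ w else θ w
  map_zero' := by
    funext w
    simp
  map_add' x y := by
    funext w
    by_cases h : w = v <;> simp [h]
    abel

lemma flipv_self (v : V) (θ : V → T) : flipv v θ v = -θ v := by
  simp [flipv]

lemma flipv_ne {v w : V} (h : w ≠ v) (θ : V → T) : flipv v θ w = θ w := by
  simp [flipv, h]

lemma flipv_mp (v : V) : MeasurePreserving (flipv v) (torusHaar V) (torusHaar V) := by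
  apply AddMonoidHom.measurePreserving
  · refine continuous_pi fun w => ?_
    by_cases h : w = v
    · have : (fun θ : V → T => flipv v θ w) = fun θ => -θ w := by
        funext θ; simp [flipv, h]
      rw [this]
      exact (continuous_apply w).neg
    · have : (fun θ : V → T => flipv v θ w) = fun θ => θ w := by
        funext θ; simp [flipv, h]
      rw [this]
      exact continuous_apply w
  · intro θ
    refine ⟨flipv v θ, ?_⟩
    funext w
    by_cases h : w = v
    · subst h
      rw [flipv_self, flipv_self, neg_neg]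
    · rw [flipv_ne h, flipv_ne h]
  · simp

theorem mon_int (a b : V →₀ ℕ) : 0 ≤ ∫ θ, mon a b θ ∂(torusHaar V) := by
  classical
  have key : ∀ R : (V → T) → (V → T), Measurable R →
      MeasurePreserving R (torusHaar V) (torusHaar V) →
      (∀ θ, mon a b (R θ) = - mon a b θ) → ∫ θ, mon a b θ ∂(torusHaar V) = 0 := by
    intro R hR0 hR h
    have h1 := integral_map (μ := torusHaar V) hR.measurable.aemeasurable
      (f := fun θ => mon a b θ) (mon a b).continuous.aestronglyMeasurable
    rw [hR.map_eq] at h1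
    simp_rw [h] at h1
    rw [integral_neg] at h1
    linarith
  by_cases h1 : ∃ v, Odd (b v)
  · obtain ⟨v, hv⟩ := h1
    refine (key (flipv v) (flipv_mp v).measurable (flipv_mp v) fun θ => ?_).ge
    rw [mon_sign a b v (ε := 1) (δ := -1) (fun w hw => flipv_ne hw θ)
      (by rw [flipv_self, cosT_neg, one_mul]) (by rw [flipv_self, sinT_neg]; ring),
      hv.neg_one_pow, one_pow]
    ring
  · by_cases h2 : ∃ v, Odd (a v)
    · obtain ⟨v, hv⟩ := h2
      have hb : Even (b v) := by
        by_contra hne
        exact h1 ⟨v, Nat.not_even_iff_odd.1 hne⟩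
      have hmp : MeasurePreserving
          (fun θ : V → T => (Pi.single v ((Real.pi : ℝ) : T) : V → T) + θ)
          (torusHaar V) (torusHaar V) := measurePreserving_add_left (torusHaar V) _
      refine (key _ hmp.measurable hmp fun θ => ?_).ge
      rw [mon_sign a b v (θ := θ) (ε := -1) (δ := -1) (fun w hw => by simp [hw])
        (by
          show cosT (((Pi.single v ((Real.pi : ℝ) : T) : V → T) + θ) v) = _
          rw [Pi.add_apply, Pi.single_eq_same, add_comm]
          exact (Real.Angle.cos_add_pi (θ v)).trans (neg_one_mul _).symm)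
        (by
          show sinT (((Pi.single v ((Real.pi : ℝ) : T) : V → T) + θ) v) = _
          rw [Pi.add_apply, Pi.single_eq_same, add_comm]
          exact (Real.Angle.sin_add_pi (θ v)).trans (neg_one_mul _).symm), hv.neg_one_pow,
          hb.neg_one_pow]
      ring
    · refine integral_nonneg fun θ => ?_
      show 0 ≤ mon a b θ
      rw [mon_apply]
      have ha : ∀ v, Even (a v) := fun v => by
        by_contra hne
        exact h2 ⟨v, Nat.not_even_iff_odd.1 hne⟩
      have hb : ∀ v, Even (b v) := fun v => by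
        by_contra hne
        exact h1 ⟨v, Nat.not_even_iff_odd.1 hne⟩
      exact mul_nonneg (Finset.prod_nonneg fun v _ => (ha v).pow_nonneg _)
        (Finset.prod_nonneg fun v _ => (hb v).pow_nonneg _)

/-- products of monomials of the two replicas -/
noncomputable def MM' (V : Type*) [Fintype V] : Submonoid C((V → T) × (V → T), ℝ) where
  carrier := {F | ∃ (r : ℝ) (a b a' b' : V →₀ ℕ), 0 ≤ r ∧
    ∀ p, F p = r * (mon a b p.1 * mon a' b' p.2)}
  mul_mem' := by
    rintro F F' ⟨r, a, b, c, d, hr, h⟩ ⟨r', a', b', c', d', hr', h'⟩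
    refine ⟨r * r', a + a', b + b', c + c', d + d', mul_nonneg hr hr', fun p => ?_⟩
    rw [← mon_mul, ← mon_mul]
    simp only [ContinuousMap.coe_mul, Pi.mul_apply, h, h']
    ring
  one_mem' := ⟨1, 0, 0, 0, 0, zero_le_one, fun p => by simp [mon_zero]⟩

lemma MM'_const (r : ℝ) (hr : 0 ≤ r) : ContinuousMap.const ((V → T) × (V → T)) r ∈ MM' V :=
  ⟨r, 0, 0, 0, 0, hr, fun p => by simp [mon_zero]⟩

/-- the cone of Kunz, Pfister and Vuillermot -/
noncomputable def PM (V : Type*) [Fintype V] : Pos (V → T) := mkPos (MM' V) MM'_const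

theorem PM_int : ∀ f ∈ (PM V).S, 0 ≤ ∫ p, f p ∂((torusHaar V).prod (torusHaar V)) := by
  refine mkPos_int _ ?_
  rintro F ⟨r, a, b, a', b', hr, h⟩
  simp_rw [h]
  rw [integral_const_mul, integral_prod_mul (fun x => mon a b x) (fun x => mon a' b' x)]
  exact mul_nonneg hr (mul_nonneg (mon_int _ _) (mon_int _ _))

/-- functions of the first replica -/
noncomputable def fs (f : C(V → T, ℝ)) : C((V → T) × (V → T), ℝ) := ⟨fun p => f p.1, by fun_prop⟩

/-- functions of the second replica -/
noncomputable def sn (f : C(V → T, ℝ)) : C((V → T) × (V → T), ℝ) := ⟨fun p => f p.2, by fun_prop⟩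

@[simp] lemma fs_apply (f : C(V → T, ℝ)) (p : (V → T) × (V → T)) : fs f p = f p.1 := rfl
@[simp] lemma sn_apply (f : C(V → T, ℝ)) (p : (V → T) × (V → T)) : sn f p = f p.2 := rfl

lemma fs_c (v : V) : fs (cc (sp v)) ∈ (PM V).S :=
  mem_mkPos ⟨1, Finsupp.single v 1, 0, 0, 0, zero_le_one, fun p => by simp [mon_c, mon_zero]⟩

lemma fs_s (v : V) : fs (ss (sp v)) ∈ (PM V).S :=
  mem_mkPos ⟨1, 0, Finsupp.single v 1, 0, 0, zero_le_one, fun p => by simp [mon_s, mon_zero]⟩

lemma sn_c (v : V) : sn (cc (sp v)) ∈ (PM V).S :=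
  mem_mkPos ⟨1, 0, 0, Finsupp.single v 1, 0, zero_le_one, fun p => by simp [mon_c, mon_zero]⟩

lemma sn_s (v : V) : sn (ss (sp v)) ∈ (PM V).S :=
  mem_mkPos ⟨1, 0, 0, 0, Finsupp.single v 1, zero_le_one, fun p => by simp [mon_s, mon_zero]⟩

lemma PM_cos (v : V) : cc (sp v) ∈ (PM V).cosS := by
  rw [Pos.mem_cosS]
  constructor
  · have e : pl (cc (sp v)) + mi (cc (sp v)) =
        ContinuousMap.const ((V → T) × (V → T)) (2 : ℝ) *
          (fs (cc (sp v)) * sn (cc (sp v))) := by
      ext p
      simp only [ContinuousMap.coe_add, ContinuousMap.coe_mul, Pi.add_apply, Pi.mul_apply,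
        pl_apply, mi_apply, cc_apply, (sp v).c_add, c_sub', ContinuousMap.const_apply, fs_apply,
        sn_apply]
      ring
    rw [e]
    exact (PM V).S.mul_mem ((PM V).const _ zero_le_two) ((PM V).S.mul_mem (fs_c v) (sn_c v))
  · have e : mi (cc (sp v)) - pl (cc (sp v)) =
        ContinuousMap.const ((V → T) × (V → T)) (2 : ℝ) *
          (fs (ss (sp v)) * sn (ss (sp v))) := by
      ext p
      simp only [ContinuousMap.coe_sub, ContinuousMap.coe_mul, Pi.sub_apply, Pi.mul_apply,
        pl_apply, mi_apply, cc_apply, ss_apply, (sp v).c_add, c_sub', ContinuousMap.const_apply,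
        fs_apply, sn_apply]
      ring
    rw [e]
    exact (PM V).S.mul_mem ((PM V).const _ zero_le_two) ((PM V).S.mul_mem (fs_s v) (sn_s v))

lemma PM_sin (v : V) : ss (sp v) ∈ (PM V).sinS := by
  rw [Pos.mem_sinS]
  constructor
  · have e : pl (ss (sp v)) + mi (ss (sp v)) =
        ContinuousMap.const ((V → T) × (V → T)) (2 : ℝ) *
          (fs (ss (sp v)) * sn (cc (sp v))) := by
      ext p
      simp only [ContinuousMap.coe_add, ContinuousMap.coe_mul, Pi.add_apply, Pi.mul_apply,
        pl_apply, mi_apply, cc_apply, ss_apply, (sp v).s_add, s_sub', ContinuousMap.const_apply,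
        fs_apply, sn_apply]
      ring
    rw [e]
    exact (PM V).S.mul_mem ((PM V).const _ zero_le_two) ((PM V).S.mul_mem (fs_s v) (sn_c v))
  · have e : pl (ss (sp v)) - mi (ss (sp v)) =
        ContinuousMap.const ((V → T) × (V → T)) (2 : ℝ) *
          (fs (cc (sp v)) * sn (ss (sp v))) := by
      ext p
      simp only [ContinuousMap.coe_sub, ContinuousMap.coe_mul, Pi.sub_apply, Pi.mul_apply,
        pl_apply, mi_apply, cc_apply, ss_apply, (sp v).s_add, s_sub', ContinuousMap.const_apply,
        fs_apply, sn_apply]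
      ring
    rw [e]
    exact (PM V).S.mul_mem ((PM V).const _ zero_le_two) ((PM V).S.mul_mem (fs_c v) (sn_s v))

end spins

section pins

open Classical in
/-- the spins of `S` replaced by `φ` -/
noncomputable def pin (S : Set V) (φ : V → T) (θ : V → T) : V → T :=
  fun v => if v ∈ S then φ v else θ v

lemma pin_mem {S : Set V} {φ θ : V → T} {v : V} (h : v ∈ S) : pin S φ θ v = φ v := by
  simp [pin, h]

lemma pin_notMem {S : Set V} {φ θ : V → T} {v : V} (h : v ∉ S) :
    pin S φ θ v = θ v := by
  simp [pin, h]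

lemma pin_empty (φ θ : V → T) : pin ∅ φ θ = θ := by
  funext v
  exact pin_notMem (Set.notMem_empty v)

lemma pin_self (S : Set V) (θ : V → T) : pin S θ θ = θ := by
  funext v
  by_cases h : v ∈ S
  · rw [pin_mem h]
  · rw [pin_notMem h]

/-- joint continuity of the pinned configuration -/
lemma pin_cont2 (S : Set V) : Continuous fun p : (V → T) × (V → T) => pin S p.1 p.2 := by
  refine continuous_pi fun v => ?_
  by_cases h : v ∈ S
  · have : (fun p : (V → T) × (V → T) => pin S p.1 p.2 v) = fun p => p.1 v := by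
      funext p; exact pin_mem h
    rw [this]
    fun_prop
  · have : (fun p : (V → T) × (V → T) => pin S p.1 p.2 v) = fun p => p.2 v := by
      funext p; exact pin_notMem h
    rw [this]
    fun_prop

lemma pin_cont (S : Set V) (φ : V → T) : Continuous (pin S φ) :=
  (pin_cont2 S).comp (by fun_prop : Continuous fun θ : V → T => (φ, θ))

/-- a function depends only on the spins of `S` -/
def Dep (S : Set V) (f : (V → T) → ℝ) : Prop := ∀ θ θ', (∀ v ∈ S, θ v = θ' v) → f θ = f θ'

instance prodBorel (V W : Type*) [Fintype V] [Fintype W] :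
    BorelSpace ((V → T) × (W → T)) := Prod.borelSpace

instance prodHaar (V W : Type*) [Fintype V] [Fintype W] :
    ((torusHaar V).prod (torusHaar W)).IsAddHaarMeasure :=
  Measure.prod.instIsAddHaarMeasure _ _

open Classical in
/-- first configuration on `S`, second off `S` -/
noncomputable def glue (S : Set V) : (V → T) × (V → T) →+ (V → T) where
  toFun p := fun v => if v ∈ S then p.1 v else p.2 v
  map_zero' := by
    funext v
    simp
  map_add' x y := by
    funext v
    by_cases h : v ∈ S <;> simp [h]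

lemma glue_eq (S : Set V) (p : (V → T) × (V → T)) : glue S p = pin S p.1 p.2 := rfl

lemma glue_mem {S : Set V} {p : (V → T) × (V → T)} {v : V} (h : v ∈ S) :
    glue S p v = p.1 v := by
  simp [glue, h]

lemma glue_notMem {S : Set V} {p : (V → T) × (V → T)} {v : V} (h : v ∉ S) :
    glue S p v = p.2 v := by
  simp [glue, h]

lemma glue_cont (S : Set V) : Continuous (glue S) := pin_cont2 S

lemma glue_mp (S : Set V) :
    MeasurePreserving (glue S) ((torusHaar V).prod (torusHaar V)) (torusHaar V) := by
  apply AddMonoidHom.measurePreserving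
  · exact glue_cont S
  · intro θ
    refine ⟨(θ, θ), ?_⟩
    funext v
    by_cases h : v ∈ S
    · rw [glue_mem h]
    · rw [glue_notMem h]
  · simp

lemma integral_glue (S : Set V) {f : (V → T) → ℝ} (hf : Continuous f) :
    ∫ p, f (glue S p) ∂((torusHaar V).prod (torusHaar V)) = ∫ θ, f θ ∂(torusHaar V) := by
  have h := glue_mp S
  have h1 := integral_map (μ := (torusHaar V).prod (torusHaar V)) h.measurable.aemeasurable
    (f := f) hf.aestronglyMeasurable
  rw [h.map_eq] at h1
  exact h1.symm

/-- disintegration with respect to the spins of `S` -/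
lemma integral_pin (S : Set V) {f : (V → T) → ℝ} (hf : Continuous f) :
    ∫ ζ, ∫ θ, f (pin S ζ θ) ∂(torusHaar V) ∂(torusHaar V) = ∫ θ, f θ ∂(torusHaar V) := by
  rw [← integral_glue S hf]
  exact (integral_prod _ (cint (hf.comp (glue_cont S)))).symm

lemma pin_int_cont (S : Set V) {f : (V → T) → ℝ} (hf : Continuous f) :
    Continuous fun ζ : V → T => ∫ θ, f (pin S ζ θ) ∂(torusHaar V) := by
  have h1 : Continuous (Function.uncurry fun (ζ θ : V → T) => f (pin S ζ θ)) :=
    hf.comp (pin_cont2 S)
  have h2 := continuous_parametric_integral_of_continuous (μ := torusHaar V) h1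
    (isCompact_univ (X := V → T))
  simpa using h2

/-- **independence** -/
theorem indep {S : Set V} {f g : (V → T) → ℝ} (hf : Continuous f) (hg : Continuous g)
    (h1 : Dep S f) (h2 : Dep Sᶜ g) :
    ∫ θ, f θ * g θ ∂(torusHaar V) =
      (∫ θ, f θ ∂(torusHaar V)) * ∫ θ, g θ ∂(torusHaar V) := by
  rw [← integral_glue S (f := fun θ => f θ * g θ) (hf.mul hg), ← integral_prod_mul]
  refine integral_congr_ae (Eventually.of_forall fun p => ?_)
  show f (glue S p) * g (glue S p) = f p.1 * g p.2
  rw [h1 (glue S p) p.1 fun v hv => glue_mem hv, h2 (glue S p) p.2 fun v hv => glue_notMem hv]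

lemma cosT_eq_one {x : T} (h : cosT x = 1) : x = 0 := by
  have h1 := Real.Angle.cos_sq_add_sin_sq x
  have h2 : Real.Angle.cos x = 1 := h
  rw [h2] at h1
  have h3 : Real.Angle.sin x = 0 := by
    have : Real.Angle.sin x ^ 2 = 0 := by linarith
    exact pow_eq_zero_iff (two_ne_zero) |>.1 this
  rcases Real.Angle.sin_eq_zero_iff.1 h3 with h4 | h4
  · exact h4
  · rw [h4] at h2
    rw [Real.Angle.cos_coe_pi] at h2
    norm_num at h2

lemma cosT_le_one (x : T) : cosT x ≤ 1 := by
  induction x using QuotientAddGroup.induction_on with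
  | H r => exact Real.cos_le_one r

lemma neg_one_le_cosT (x : T) : -1 ≤ cosT x := by
  induction x using QuotientAddGroup.induction_on with
  | H r => exact Real.neg_one_le_cos r

/-- the sum of the cosines of the spins of `S` relative to `φ` -/
noncomputable def ps (S : Finset V) (φ : V → T) : C(V → T, ℝ) :=
  ⟨fun θ => ∑ v ∈ S, cosT (θ v - φ v), by
    refine continuous_finsetSum _ fun v _ => ?_
    exact cont_cos.comp ((continuous_apply v).sub continuous_const)⟩

@[simp] lemma ps_apply (S : Finset V) (φ θ : V → T) :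
    ps S φ θ = ∑ v ∈ S, cosT (θ v - φ v) := rfl

/-- the peaked weight -/
noncomputable def PK (n : ℕ) (S : Finset V) (φ : V → T) : C(V → T, ℝ) :=
  cexp (ContinuousMap.const (V → T) (n : ℝ) * ps S φ)

lemma PK_apply (n : ℕ) (S : Finset V) (φ θ : V → T) :
    PK n S φ θ = Real.exp (n * ∑ v ∈ S, cosT (θ v - φ v)) := rfl

lemma PK_union (n : ℕ) [DecidableEq V] {S S' : Finset V} (h : Disjoint S S') (φ : V → T) :
    PK n (S ∪ S') φ = PK n S φ * PK n S' φ := by
  ext θ
  rw [ContinuousMap.mul_apply, PK_apply, PK_apply, PK_apply, ← Real.exp_add,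
    Finset.sum_union h, mul_add]

lemma PK_pos (n : ℕ) (S : Finset V) (φ θ : V → T) : 0 < PK n S φ θ := by
  rw [PK_apply]
  exact Real.exp_pos _

lemma PK_dep (n : ℕ) (S : Finset V) (φ : V → T) : Dep (S : Set V) (PK n S φ) := by
  intro θ θ' h
  rw [PK_apply, PK_apply]
  congr 2
  refine Finset.sum_congr rfl fun v hv => ?_
  rw [h v hv]

/-- the normalization -/
noncomputable def NN (n : ℕ) (S : Finset V) (φ : V → T) : ℝ := ∫ θ, PK n S φ θ ∂(torusHaar V)

lemma int_pos_of_pos {f : (V → T) → ℝ} (hf : Continuous f) (h0 : ∀ θ, 0 ≤ f θ) {x : V → T}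
    (hx : f x ≠ 0) : 0 < ∫ θ, f θ ∂(torusHaar V) :=
  Continuous.integral_pos_of_hasCompactSupport_nonneg_nonzero hf
    (HasCompactSupport.of_compactSpace _) h0 (x := x) hx

lemma NN_pos (n : ℕ) (S : Finset V) (φ : V → T) : 0 < NN n S φ :=
  int_pos_of_pos (PK n S φ).continuous (fun θ => (PK_pos n S φ θ).le) (x := φ)
    (PK_pos n S φ φ).ne'

lemma NN_union (n : ℕ) [DecidableEq V] {S S' : Finset V} (h : Disjoint S S') (φ : V → T) :
    NN n (S ∪ S') φ = NN n S φ * NN n S' φ := by
  unfold NN
  rw [PK_union n h]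
  refine indep (S := (S : Set V)) (PK n S φ).continuous (PK n S' φ).continuous
    (PK_dep n S φ) ?_
  intro θ θ' h1
  refine PK_dep n S' φ θ θ' fun v hv => h1 v ?_
  intro h2
  exact Finset.disjoint_left.1 h h2 hv

/-- the normalization does not depend on the angles -/
lemma NN_eq (n : ℕ) (S : Finset V) (φ : V → T) : NN n S φ = NN n S 0 := by
  unfold NN
  rw [← integral_add_right_eq_self (fun θ => PK n S φ θ) φ]
  refine integral_congr_ae (Eventually.of_forall fun θ => ?_)
  show PK n S φ (θ + φ) = PK n S 0 θ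
  rw [PK_apply, PK_apply]
  congr 2
  refine Finset.sum_congr rfl fun v _ => ?_
  simp

/-- the peaked weights converge to pinned spins -/
theorem peak (S : Finset V) (φ : V → T) {Φ : (V → T) → ℝ} (hΦ : Continuous Φ) :
    Tendsto (fun n => (NN n S φ)⁻¹ * ∫ θ, PK n S φ θ * Φ θ ∂(torusHaar V)) atTop
      (𝓝 (∫ θ, Φ (pin S φ θ) ∂(torusHaar V))) := by
  classical
  set j : (S → T) × (V → T) →+ (V → T) :=
    { toFun := fun p => fun v => if h : v ∈ S then p.1 ⟨v, h⟩ else p.2 v
      map_zero' := by funext v; simp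
      map_add' := by
        intro x y
        funext v
        by_cases h : v ∈ S <;> simp [h] } with hj
  have jm : ∀ (p : (S → T) × (V → T)) (v : V) (h : v ∈ S), j p v = p.1 ⟨v, h⟩ := by
    intro p v h
    simp [hj, h]
  have jn : ∀ (p : (S → T) × (V → T)) (v : V) (h : v ∉ S), j p v = p.2 v := by
    intro p v h
    simp [hj, h]
  have jc : Continuous j := by
    refine continuous_pi fun v => ?_
    by_cases h : v ∈ S
    · have : (fun p => j p v) = fun p : (S → T) × (V → T) => p.1 ⟨v, h⟩ := by
        funext p; exact jm p v h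
      rw [this]
      exact (continuous_apply _).comp continuous_fst
    · have : (fun p => j p v) = fun p : (S → T) × (V → T) => p.2 v := by
        funext p; exact jn p v h
      rw [this]
      exact (continuous_apply v).comp continuous_snd
  have jmp : MeasurePreserving j ((torusHaar S).prod (torusHaar V)) (torusHaar V) := by
    apply AddMonoidHom.measurePreserving
    · exact jc
    · intro θ
      refine ⟨(fun v => θ v, θ), ?_⟩
      funext v
      by_cases h : v ∈ S
      · rw [jm _ v h]
      · rw [jn _ v h]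
    · simp
  have hint : ∀ {f : (V → T) → ℝ}, Continuous f →
      ∫ θ, f θ ∂(torusHaar V) = ∫ y, ∫ x, f (j (y, x)) ∂(torusHaar V) ∂(torusHaar S) := by
    intro f hf
    have h1 := integral_map (μ := (torusHaar S).prod (torusHaar V)) jmp.measurable.aemeasurable
      (f := f) hf.aestronglyMeasurable
    rw [jmp.map_eq] at h1
    rw [h1]
    exact integral_prod _ (cint (hf.comp jc))
  set c : (S → T) → ℝ := fun y => Real.exp (∑ v : S, cosT (y v - φ v)) with hc
  have cc' : Continuous c := by
    refine Real.continuous_exp.comp (continuous_finsetSum _ fun v _ => ?_)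
    exact cont_cos.comp ((continuous_apply v).sub continuous_const)
  have hPK : ∀ n y x, PK n S φ (j (y, x)) = c y ^ n := by
    intro n y x
    rw [PK_apply, hc]
    simp only
    rw [← Real.exp_nat_mul]
    congr 2
    rw [← Finset.sum_coe_sort S]
    refine Finset.sum_congr rfl fun v _ => ?_
    rw [jm (y, x) v v.2]
  set g : (S → T) → ℝ := fun y => ∫ x, Φ (j (y, x)) ∂(torusHaar V) with hg
  have gc : Continuous g := by
    have h1 : Continuous (Function.uncurry fun (y : S → T) (x : V → T) => Φ (j (y, x))) := by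
      exact hΦ.comp (jc.comp (by fun_prop))
    have h2 := continuous_parametric_integral_of_continuous (μ := torusHaar V) h1
      (isCompact_univ (X := V → T))
    simpa using h2
  have h3 : ∀ n, ∫ θ, PK n S φ θ * Φ θ ∂(torusHaar V) = ∫ y, c y ^ n * g y ∂(torusHaar S) := by
    intro n
    rw [hint (f := fun θ => PK n S φ θ * Φ θ) ((PK n S φ).continuous.mul hΦ)]
    refine integral_congr_ae (Eventually.of_forall fun y => ?_)
    show ∫ x, PK n S φ (j (y, x)) * Φ (j (y, x)) ∂(torusHaar V) = _
    simp_rw [hPK]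
    rw [integral_const_mul]
  have h4 : ∀ n, NN n S φ = ∫ y, c y ^ n ∂(torusHaar S) := by
    intro n
    unfold NN
    rw [hint (PK n S φ).continuous]
    refine integral_congr_ae (Eventually.of_forall fun y => ?_)
    show ∫ x, PK n S φ (j (y, x)) ∂(torusHaar V) = _
    simp_rw [hPK]
    simp
  have hc0 : ∀ y, 0 < c y := fun y => Real.exp_pos _
  set y0 : S → T := fun v => φ v with hy0
  have hmax : ∀ y, y ≠ y0 → c y < c y0 := by
    intro y hy
    have : ∃ v, y v ≠ φ v := by
      by_contra hne
      push Not at hne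
      exact hy (funext hne)
    obtain ⟨v, hv⟩ := this
    refine Real.exp_lt_exp.2 (Finset.sum_lt_sum (fun w _ => ?_) ⟨v, Finset.mem_univ v, ?_⟩)
    · simp only [hy0, sub_self, cosT_zero]
      exact cosT_le_one _
    · simp only [hy0, sub_self, cosT_zero]
      exact lt_of_le_of_ne (cosT_le_one _) fun h => hv (sub_eq_zero.1 (cosT_eq_one h))
  have h6 := tendsto_setIntegral_pow_smul_of_unique_maximum_of_isCompact_of_continuousOn
    (μ := torusHaar S) (s := Set.univ) (x₀ := y0) isCompact_univ (c := c) (g := g)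
    cc'.continuousOn (fun y _ => hmax y) (fun y _ => (hc0 y).le) (hc0 y0)
    (by simp) gc.continuousOn
  simp only [Measure.restrict_univ, smul_eq_mul] at h6
  have h7 : g y0 = ∫ θ, Φ (pin S φ θ) ∂(torusHaar V) := by
    rw [hg]
    refine integral_congr_ae (Eventually.of_forall fun x => ?_)
    show Φ (j (y0, x)) = Φ (pin S φ x)
    congr 1
    funext v
    by_cases h : v ∈ S
    · rw [jm _ v h, pin_mem (by simpa using h)]
    · rw [jn _ v h, pin_notMem (by simpa using h)]
  rw [← h7]
  refine h6.congr fun n => ?_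
  rw [h3, h4]

end pins

end Vale.Agent.P159.TM.H389
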