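import Vale.Agent.P159.TM.H389.Rm
import Mathlib.Analysis.Complex.CauchyIntegral
import Mathlib.Analysis.Fourier.AddCircle

/-!
Row RM / ITTOT: the bound of McBryan and Spencer for the relative angle of two wired sets of spins.
-/

open MeasureTheory Filter Topology
open scoped BigOperators

set_option linter.all false

namespace Vale.Agent.P159.TM.H389

open Vale.Agent.P159 Vale.Agent.P159.T1.H42

section shift

variable {Ω : Type*} [TopologicalSpace Ω] [CompactSpace Ω] [T2Space Ω]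
  [SecondCountableTopology Ω]
  [MeasurableSpace Ω] [BorelSpace Ω] {μ : Measure Ω} [IsProbabilityMeasure μ]

lemma cintC {f : Ω → ℂ} (hf : Continuous f) : Integrable f μ :=
  hf.integrable_of_hasCompactSupport (HasCompactSupport.of_compactSpace _)

lemma swapC {f : ℝ → Ω → ℂ} (hf : Continuous (Function.uncurry f)) (a b : ℝ) :
    ∫ x in a..b, ∫ θ, f x θ ∂μ = ∫ θ, (∫ x in a..b, f x θ) ∂μ := by
  refine intervalIntegral_integral_swap ?_
  have h1 : IntegrableOn (Function.uncurry f) (Set.uIcc a b ×ˢ Set.univ)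
      ((volume : Measure ℝ).prod μ) :=
    hf.continuousOn.integrableOn_compact (isCompact_uIcc.prod isCompact_univ)
  have h2 : IntegrableOn (Function.uncurry f) (Set.uIoc a b ×ˢ Set.univ)
      ((volume : Measure ℝ).prod μ) :=
    h1.mono_set (Set.prod_mono Set.uIoc_subset_uIcc subset_rfl)
  unfold IntegrableOn at h2
  rw [← Measure.prod_restrict, Measure.restrict_univ] at h2
  exact h2

lemma int4C {a b c d : Ω → ℂ} (ha : Integrable a μ) (hb : Integrable b μ)
    (hc : Integrable c μ) (hd : Integrable d μ) :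
    ∫ x, (a x - b x + Complex.I * c x - Complex.I * d x) ∂μ =
      (∫ x, a x ∂μ) - (∫ x, b x ∂μ) + Complex.I * (∫ x, c x ∂μ) -
        Complex.I * ∫ x, d x ∂μ := by
  have h1 : Integrable (fun x => a x - b x) μ := ha.sub hb
  have h2 : Integrable (fun x => Complex.I * c x) μ := hc.const_mul _
  have h3 : Integrable (fun x => Complex.I * d x) μ := hd.const_mul _
  have h4 : Integrable (fun x => a x - b x + Complex.I * c x) μ := h1.add h2
  rw [integral_sub h4 h3, integral_add h1 h2, integral_sub ha hb, integral_const_mul,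
    integral_const_mul]

/-- shift of the contour for a periodic average of entire functions -/
theorem shift {g : ℂ → Ω → ℂ} (hg : Continuous (Function.uncurry g))
    (hd : ∀ θ, Differentiable ℂ fun z => g z θ) {R : ℝ}
    (hper : ∀ z : ℂ, ∫ θ, g (z + R) θ ∂μ = ∫ θ, g z θ ∂μ) (τ : ℝ) :
    ∫ x in (0 : ℝ)..R, ∫ θ, g (x : ℂ) θ ∂μ =
      ∫ x in (0 : ℝ)..R, ∫ θ, g ((x : ℂ) + τ * Complex.I) θ ∂μ := by
  have c1 : Continuous (Function.uncurry fun (x : ℝ) (θ : Ω) => g (x : ℂ) θ) :=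
    hg.comp (by fun_prop : Continuous fun p : ℝ × Ω => ((p.1 : ℂ), p.2))
  have c2 : Continuous (Function.uncurry fun (x : ℝ) (θ : Ω) => g ((x : ℂ) + τ * Complex.I) θ) :=
    hg.comp (by fun_prop : Continuous fun p : ℝ × Ω => ((p.1 : ℂ) + τ * Complex.I, p.2))
  have c3 : Continuous (Function.uncurry fun (y : ℝ) (θ : Ω) => g ((R : ℂ) + y * Complex.I) θ) :=
    hg.comp (by fun_prop : Continuous fun p : ℝ × Ω => ((R : ℂ) + p.1 * Complex.I, p.2))
  have c4 : Continuous (Function.uncurry fun (y : ℝ) (θ : Ω) => g ((y : ℂ) * Complex.I) θ) :=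
    hg.comp (by fun_prop : Continuous fun p : ℝ × Ω => ((p.1 : ℂ) * Complex.I, p.2))
  rw [swapC c1, swapC c2]
  have h3 : ∫ y in (0 : ℝ)..τ, ∫ θ, g ((R : ℂ) + y * Complex.I) θ ∂μ =
      ∫ y in (0 : ℝ)..τ, ∫ θ, g ((y : ℂ) * Complex.I) θ ∂μ := by
    refine intervalIntegral.integral_congr fun y _ => ?_
    show ∫ θ, g ((R : ℂ) + y * Complex.I) θ ∂μ = ∫ θ, g ((y : ℂ) * Complex.I) θ ∂μ
    rw [add_comm (R : ℂ)]
    exact hper _
  rw [swapC c3, swapC c4] at h3
  have k : ∀ {f : ℝ → Ω → ℂ}, Continuous (Function.uncurry f) → ∀ a b : ℝ,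
      Integrable (fun θ => ∫ x in a..b, f x θ) μ := by
    intro f hf a b
    refine cintC ?_
    have h := intervalIntegral.continuous_parametric_intervalIntegral_of_continuous'
      (μ := (volume : Measure ℝ)) (f := fun (θ : Ω) (x : ℝ) => f x θ)
      (hf.comp (continuous_swap)) a b
    exact h
  have hrect : ∀ θ, (∫ x in (0 : ℝ)..R, g (x : ℂ) θ) -
      (∫ x in (0 : ℝ)..R, g ((x : ℂ) + τ * Complex.I) θ) +
      Complex.I * (∫ y in (0 : ℝ)..τ, g ((R : ℂ) + y * Complex.I) θ) -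
      Complex.I * (∫ y in (0 : ℝ)..τ, g ((y : ℂ) * Complex.I) θ) = 0 := by
    intro θ
    have h := Complex.integral_boundary_rect_eq_zero_of_differentiableOn (fun z => g z θ) 0
      ((R : ℂ) + τ * Complex.I) (hd θ).differentiableOn
    have e1 : ((R : ℂ) + τ * Complex.I).re = R := by simp
    have e2 : ((R : ℂ) + τ * Complex.I).im = τ := by simp
    rw [e1, e2, Complex.zero_re, Complex.zero_im] at h
    simp only [Complex.ofReal_zero, zero_mul, add_zero, zero_add, smul_eq_mul] at h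
    exact h
  have h5 : ∫ θ, ((∫ x in (0 : ℝ)..R, g (x : ℂ) θ) -
      (∫ x in (0 : ℝ)..R, g ((x : ℂ) + τ * Complex.I) θ) +
      Complex.I * (∫ y in (0 : ℝ)..τ, g ((R : ℂ) + y * Complex.I) θ) -
      Complex.I * (∫ y in (0 : ℝ)..τ, g ((y : ℂ) * Complex.I) θ)) ∂μ = 0 := by
    simp_rw [hrect]
    simp
  rw [int4C (k c1 0 R) (k c2 0 R) (k c3 0 τ) (k c4 0 τ), h3] at h5
  have h6 := sub_eq_zero.1 (show (∫ θ, (∫ x in (0 : ℝ)..R, g (x : ℂ) θ) ∂μ) -
    ∫ θ, (∫ x in (0 : ℝ)..R, g ((x : ℂ) + τ * Complex.I) θ) ∂μ = 0 by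
      rw [← h5]; ring)
  exact h6

end shift

section ms

variable {V : Type*} [Fintype V] {ι : Type*} [Fintype ι]

lemma cosT_add_coe (x : T) (r : ℝ) :
    cosT (x + (r : T)) = cosT x * Real.cos r - sinT x * Real.sin r := by
  have := Real.Angle.cos_add x ((r : ℝ) : Real.Angle)
  rw [Real.Angle.cos_coe, Real.Angle.sin_coe] at this
  exact this

lemma sinT_add_coe (x : T) (r : ℝ) :
    sinT (x + (r : T)) = sinT x * Real.cos r + cosT x * Real.sin r := by
  have := Real.Angle.sin_add x ((r : ℝ) : Real.Angle)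
  rw [Real.Angle.cos_coe, Real.Angle.sin_coe] at this
  exact this

/-- the relative angles of the pinned configuration -/
noncomputable def ang (s t : ι → V) (X : Set V) (θ : V → T) (i : ι) : T :=
  pin X 0 θ (s i) - pin X 0 θ (t i)

lemma ang_cont (s t : ι → V) (X : Set V) (i : ι) : Continuous fun θ => ang s t X θ i :=
  ((continuous_apply (s i)).comp (pin_cont X 0)).sub
    ((continuous_apply (t i)).comp (pin_cont X 0))

/-- the complex twist -/
noncomputable def gz (J : ι → ℝ) (s t : ι → V) (X : Set V) (ψ : V → ℝ) (z : ℂ)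
    (θ : V → T) : ℂ :=
  Complex.exp (∑ i, (J i : ℂ) *
    ((cosT (ang s t X θ i) : ℂ) * Complex.cos (z * ((ψ (s i) - ψ (t i) : ℝ) : ℂ)) -
      (sinT (ang s t X θ i) : ℂ) * Complex.sin (z * ((ψ (s i) - ψ (t i) : ℝ) : ℂ))))

lemma gz_cont (J : ι → ℝ) (s t : ι → V) (X : Set V) (ψ : V → ℝ) :
    Continuous (Function.uncurry (gz J s t X ψ)) := by
  refine Complex.continuous_exp.comp (continuous_finsetSum _ fun i _ => ?_)
  have h1 : Continuous fun p : ℂ × (V → T) => (cosT (ang s t X p.2 i) : ℂ) :=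
    Complex.continuous_ofReal.comp (cont_cos.comp ((ang_cont s t X i).comp continuous_snd))
  have h2 : Continuous fun p : ℂ × (V → T) => (sinT (ang s t X p.2 i) : ℂ) :=
    Complex.continuous_ofReal.comp (cont_sin.comp ((ang_cont s t X i).comp continuous_snd))
  have h3 : Continuous fun p : ℂ × (V → T) =>
      Complex.cos (p.1 * ((ψ (s i) - ψ (t i) : ℝ) : ℂ)) :=
    Complex.continuous_cos.comp (continuous_fst.mul continuous_const)
  have h4 : Continuous fun p : ℂ × (V → T) =>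
      Complex.sin (p.1 * ((ψ (s i) - ψ (t i) : ℝ) : ℂ)) :=
    Complex.continuous_sin.comp (continuous_fst.mul continuous_const)
  exact continuous_const.mul ((h1.mul h3).sub (h2.mul h4))

lemma gz_diff (J : ι → ℝ) (s t : ι → V) (X : Set V) (ψ : V → ℝ) (θ : V → T) :
    Differentiable ℂ fun z => gz J s t X ψ z θ := by
  unfold gz
  fun_prop

/-- the exponent of the twisted energy -/
lemma gz_coe (J : ι → ℝ) (s t : ι → V) (X : Set V) (ψ : V → ℝ) (x : ℝ) (θ : V → T) :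
    gz J s t X ψ (x : ℂ) θ = ((Real.exp (∑ i, J i * cosT (ang s t X θ i +
      ((x * (ψ (s i) - ψ (t i)) : ℝ) : T))) : ℝ) : ℂ) := by
  unfold gz
  rw [Complex.ofReal_exp]
  congr 1
  push_cast
  refine Finset.sum_congr rfl fun i _ => ?_
  rw [cosT_add_coe]
  push_cast
  rfl

open Classical in
/-- the angle `φ` on `S'`, `0` elsewhere -/
noncomputable def two (S' : Set V) (φ : T) : V → T := fun v => if v ∈ S' then φ else 0

lemma two_mem {S' : Set V} {φ : T} {v : V} (h : v ∈ S') : two S' φ v = φ := by simp [two, h]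

lemma two_notMem {S' : Set V} {φ : T} {v : V} (h : v ∉ S') : two S' φ v = 0 := by simp [two, h]

/-- partition function with `S` at `0` and `S'` at `φ` -/
noncomputable def Aph (a : (V → T) → ℝ) (S S' : Set V) (φ : T) : ℝ :=
  ∫ θ, a (pin (S ∪ S') (two S' φ) θ) ∂(torusHaar V)

section fix

variable {J : ι → ℝ} {s t : ι → V} {S S' : Set V} {ψ : V → ℝ}

/-- rotation by `x ψ` -/
lemma pin_rot (hd : Disjoint S S') (h0 : ∀ v ∈ S, ψ v = 0) (h1 : ∀ v ∈ S', ψ v = 1) (x : ℝ)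
    (θ : V → T) (v : V) :
    pin (S ∪ S') (two S' (x : T)) (θ + fun v => ((x * ψ v : ℝ) : T)) v =
      pin (S ∪ S') 0 θ v + ((x * ψ v : ℝ) : T) := by
  by_cases hS : v ∈ S
  · have hS' : v ∉ S' := fun h => Set.disjoint_left.1 hd hS h
    have hX : v ∈ S ∪ S' := Or.inl hS
    rw [pin_mem hX, pin_mem hX, two_notMem hS', h0 v hS, mul_zero]
    simp
  · by_cases hS' : v ∈ S'
    · have hX : v ∈ S ∪ S' := Or.inr hS'
      rw [pin_mem hX, pin_mem hX, two_mem hS', h1 v hS', mul_one]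
      simp
    · have h : v ∉ S ∪ S' := fun h => h.elim hS hS'
      rw [pin_notMem h, pin_notMem h]
      rfl

lemma coe_sub' (x : ℝ) (p q : ℝ) : ((x * (p - q) : ℝ) : T) =
    ((x * p : ℝ) : T) - ((x * q : ℝ) : T) := by
  rw [mul_sub, AddCircle.coe_sub]

lemma gz_real (hd : Disjoint S S') (h0 : ∀ v ∈ S, ψ v = 0) (h1 : ∀ v ∈ S', ψ v = 1) (x : ℝ)
    (θ : V → T) : gz J s t (S ∪ S') ψ (x : ℂ) θ =
      ((cexp (EN J s t) (pin (S ∪ S') (two S' (x : T)) (θ + fun v => ((x * ψ v : ℝ) : T))) : ℝ) :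
        ℂ) := by
  rw [gz_coe, cexp_apply, EN_apply]
  congr 3
  funext i
  rw [pin_rot hd h0 h1, pin_rot hd h0 h1, coe_sub']
  unfold ang
  congr 2
  abel

lemma int_gz_real (hd : Disjoint S S') (h0 : ∀ v ∈ S, ψ v = 0) (h1 : ∀ v ∈ S', ψ v = 1)
    (x : ℝ) : ∫ θ, gz J s t (S ∪ S') ψ (x : ℂ) θ ∂(torusHaar V) =
      ((Aph (cexp (EN J s t)) S S' (x : T) : ℝ) : ℂ) := by
  unfold Aph
  rw [← integral_complex_ofReal, ← integral_add_right_eq_self
    (fun θ => ((cexp (EN J s t) (pin (S ∪ S') (two S' (x : T)) θ) : ℝ) : ℂ))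
    (fun v => ((x * ψ v : ℝ) : T))]
  refine integral_congr_ae (Eventually.of_forall fun θ => ?_)
  exact gz_real hd h0 h1 x θ

lemma gz_per (hd : Disjoint S S') (h0 : ∀ v ∈ S, ψ v = 0) (h1 : ∀ v ∈ S', ψ v = 1) (z : ℂ)
    (θ : V → T) : gz J s t (S ∪ S') ψ (z + (2 * Real.pi : ℝ)) θ =
      gz J s t (S ∪ S') ψ z (θ + fun v => ((2 * Real.pi * ψ v : ℝ) : T)) := by
  have hp : ((2 * Real.pi : ℝ) : T) = 0 := AddCircle.coe_period _
  have ha : ∀ i, ang s t (S ∪ S') (θ + fun v => ((2 * Real.pi * ψ v : ℝ) : T)) i =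
      ang s t (S ∪ S') θ i + ((2 * Real.pi * (ψ (s i) - ψ (t i)) : ℝ) : T) := by
    intro i
    have hv : ∀ v, pin (S ∪ S') 0 (θ + fun v => ((2 * Real.pi * ψ v : ℝ) : T)) v =
        pin (S ∪ S') 0 θ v + ((2 * Real.pi * ψ v : ℝ) : T) := by
      intro v
      by_cases hS : v ∈ S
      · have hX : v ∈ S ∪ S' := Or.inl hS
        rw [pin_mem hX, pin_mem hX, h0 v hS, mul_zero]
        simp
      · by_cases hS' : v ∈ S'
        · have hX : v ∈ S ∪ S' := Or.inr hS'
          rw [pin_mem hX, pin_mem hX, h1 v hS', mul_one, hp]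
          simp
        · have h : v ∉ S ∪ S' := fun h => h.elim hS hS'
          rw [pin_notMem h, pin_notMem h]
          rfl
    unfold ang
    rw [hv, hv, coe_sub']
    abel
  unfold gz
  congr 1
  refine Finset.sum_congr rfl fun i _ => ?_
  rw [ha, cosT_add_coe, sinT_add_coe]
  have e : (z + ((2 * Real.pi : ℝ) : ℂ)) * ((ψ (s i) - ψ (t i) : ℝ) : ℂ) =
      z * ((ψ (s i) - ψ (t i) : ℝ) : ℂ) + ((2 * Real.pi * (ψ (s i) - ψ (t i)) : ℝ) : ℂ) := by
    push_cast; ring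
  rw [e, Complex.cos_add, Complex.sin_add]
  push_cast
  ring

lemma int_gz_per (hd : Disjoint S S') (h0 : ∀ v ∈ S, ψ v = 0) (h1 : ∀ v ∈ S', ψ v = 1)
    (z : ℂ) : ∫ θ, gz J s t (S ∪ S') ψ (z + (2 * Real.pi : ℝ)) θ ∂(torusHaar V) =
      ∫ θ, gz J s t (S ∪ S') ψ z θ ∂(torusHaar V) := by
  simp_rw [gz_per hd h0 h1]
  exact integral_add_right_eq_self (fun θ => gz J s t (S ∪ S') ψ z θ)
    (fun v => ((2 * Real.pi * ψ v : ℝ) : T))

end fix

lemma cos_re (x y : ℝ) : (Complex.cos ((x : ℂ) + (y : ℂ) * Complex.I)).re =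
    Real.cos x * Real.cosh y := by
  rw [Complex.cos_add_mul_I]
  simp [Complex.cos_ofReal_re, Complex.cosh_ofReal_re]

lemma sin_re (x y : ℝ) : (Complex.sin ((x : ℂ) + (y : ℂ) * Complex.I)).re =
    Real.sin x * Real.cosh y := by
  rw [Complex.sin_add_mul_I]
  simp [Complex.sin_ofReal_re, Complex.cosh_ofReal_re]

/-- the cost of a complex twist -/
noncomputable def Ecost (J : ι → ℝ) (s t : ι → V) (ψ : V → ℝ) (τ : ℝ) : ℝ :=
  ∑ i, J i * (Real.cosh (τ * (ψ (s i) - ψ (t i))) - 1)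

lemma Ecost_neg (J : ι → ℝ) (s t : ι → V) (ψ : V → ℝ) (τ : ℝ) :
    Ecost J s t ψ (-τ) = Ecost J s t ψ τ := by
  unfold Ecost
  refine Finset.sum_congr rfl fun i _ => ?_
  rw [neg_mul, Real.cosh_neg]

lemma gz_norm {J : ι → ℝ} (hJ : ∀ i, 0 ≤ J i) (s t : ι → V) (X : Set V) (ψ : V → ℝ)
    (x τ : ℝ) (θ : V → T) :
    ‖gz J s t X ψ ((x : ℂ) + τ * Complex.I) θ‖ ≤
      Real.exp (Ecost J s t ψ τ) * ‖gz J s t X ψ (x : ℂ) θ‖ := by
  rw [gz_coe, Complex.norm_real, Real.norm_eq_abs, abs_of_pos (Real.exp_pos _), ← Real.exp_add]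
  unfold gz
  rw [Complex.norm_exp]
  refine Real.exp_le_exp.2 ?_
  unfold Ecost
  rw [Complex.re_sum, ← Finset.sum_add_distrib]
  refine Finset.sum_le_sum fun i _ => ?_
  set d := ψ (s i) - ψ (t i) with hd
  have e : ((x : ℂ) + τ * Complex.I) * ((d : ℝ) : ℂ) =
      ((x * d : ℝ) : ℂ) + ((τ * d : ℝ) : ℂ) * Complex.I := by push_cast; ring
  rw [e, ← mul_add, cosT_add_coe, Complex.re_ofReal_mul, Complex.sub_re, Complex.re_ofReal_mul,
    Complex.re_ofReal_mul, cos_re, sin_re]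
  refine mul_le_mul_of_nonneg_left ?_ (hJ i)
  have h1 : cosT (ang s t X θ i) * Real.cos (x * d) - sinT (ang s t X θ i) * Real.sin (x * d) ≤ 1 := by
    rw [← cosT_add_coe]
    exact cosT_le_one _
  have h2 : 1 ≤ Real.cosh (τ * d) := Real.one_le_cosh _
  nlinarith

end ms

end Vale.Agent.P159.TM.H389
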