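import Vale.Agent.P159.TM.H389.Gen

/-!
Row RM / ISAND (spin form).  The order of weights `Lew P A B` which makes influences nonnegative:
`B (x + y) A (x - y) + A (x + y) B (x - y)` and `A (x + y) B (x - y) - B (x + y) A (x - y)` lie in
the cone of two replicas.
-/

open MeasureTheory Filter Topology
open scoped BigOperators

set_option linter.all false

namespace Vale.Agent.P159.TM.H389

open Vale.Agent.P159 Vale.Agent.P159.T1.H42

section ord

variable {G : Type*} [AddCommGroup G] [TopologicalSpace G] [IsTopologicalAddGroup G]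
  [CompactSpace G] (P : Pos G)

/-- order of weights -/
def Lew (A B : C(G, ℝ)) : Prop :=
  pl B * mi A + pl A * mi B ∈ P.S ∧ pl A * mi B - pl B * mi A ∈ P.S

variable {P}

lemma pl_mul (f g : C(G, ℝ)) : pl (f * g) = pl f * pl g := by ext p; simp

lemma mi_mul (f g : C(G, ℝ)) : mi (f * g) = mi f * mi g := by ext p; simp

lemma pl_one : pl (1 : C(G, ℝ)) = 1 := by ext p; simp

lemma mi_one : mi (1 : C(G, ℝ)) = 1 := by ext p; simp

lemma Lew_one_iff {p : C(G, ℝ)} : Lew P 1 p ↔ p ∈ P.cosS := by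
  unfold Lew
  rw [pl_one, mi_one, mul_one, one_mul, P.mem_cosS]

lemma half_mem {f : C(G × G, ℝ)} (h : f + f ∈ P.S) : f ∈ P.S := by
  have e : f = ContinuousMap.const (G × G) (1 / 2 : ℝ) * (f + f) := by
    ext p
    simp
    ring
  rw [e]
  exact P.S.mul_mem (P.const _ (by norm_num)) h

lemma Lew_self {A : C(G, ℝ)} (h : pl A * mi A ∈ P.S) : Lew P A A := by
  refine ⟨P.S.add_mem h h, ?_⟩
  rw [sub_self]
  exact P.S.zero_mem

lemma Lew.wt {A : C(G, ℝ)} (h : Lew P A A) : pl A * mi A ∈ P.S := half_mem h.1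

/-- products -/
lemma Lew.mul {A B A' B' : C(G, ℝ)} (h : Lew P A B) (h' : Lew P A' B') :
    Lew P (A * A') (B * B') := by
  constructor
  · have e : pl (B * B') * mi (A * A') + pl (A * A') * mi (B * B') =
        ContinuousMap.const (G × G) (1 / 2 : ℝ) *
          ((pl B * mi A + pl A * mi B) * (pl B' * mi A' + pl A' * mi B') +
            (pl A * mi B - pl B * mi A) * (pl A' * mi B' - pl B' * mi A')) := by
      rw [pl_mul, mi_mul, pl_mul, mi_mul]
      ext p
      simp only [ContinuousMap.coe_add, ContinuousMap.coe_mul, Pi.add_apply, Pi.mul_apply,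
        ContinuousMap.coe_sub, Pi.sub_apply, ContinuousMap.const_apply]
      ring
    rw [e]
    exact P.S.mul_mem (P.const _ (by norm_num))
      (P.S.add_mem (P.S.mul_mem h.1 h'.1) (P.S.mul_mem h.2 h'.2))
  · have e : pl (A * A') * mi (B * B') - pl (B * B') * mi (A * A') =
        ContinuousMap.const (G × G) (1 / 2 : ℝ) *
          ((pl A * mi B - pl B * mi A) * (pl B' * mi A' + pl A' * mi B') +
            (pl B * mi A + pl A * mi B) * (pl A' * mi B' - pl B' * mi A')) := by
      rw [pl_mul, mi_mul, pl_mul, mi_mul]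
      ext p
      simp only [ContinuousMap.coe_add, ContinuousMap.coe_mul, Pi.add_apply, Pi.mul_apply,
        ContinuousMap.coe_sub, Pi.sub_apply, ContinuousMap.const_apply]
      ring
    rw [e]
    exact P.S.mul_mem (P.const _ (by norm_num))
      (P.S.add_mem (P.S.mul_mem h.2 h'.1) (P.S.mul_mem h.1 h'.2))

/-- multiplication by a positive definite function -/
lemma Lew.mul_cos {A p : C(G, ℝ)} (h : pl A * mi A ∈ P.S) (hp : p ∈ P.cosS) :
    Lew P A (A * p) := by
  have := (Lew_self h).mul (Lew_one_iff.2 hp)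
  rwa [mul_one] at this

lemma wt_mul {A B : C(G, ℝ)} (h : pl A * mi A ∈ P.S) (h' : pl B * mi B ∈ P.S) :
    pl (A * B) * mi (A * B) ∈ P.S := by
  have e : pl (A * B) * mi (A * B) = (pl A * mi A) * (pl B * mi B) := by
    rw [pl_mul, mi_mul]; ring
  rw [e]
  exact P.S.mul_mem h h'

lemma wt_one : pl (1 : C(G, ℝ)) * mi 1 ∈ P.S := by
  rw [pl_one, mi_one, mul_one]
  exact P.S.one_mem

lemma wt_cexp {H : C(G, ℝ)} (h : H ∈ P.cosS) : pl (cexp H) * mi (cexp H) ∈ P.S :=
  P.even_exp h.1

/-- limits -/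
lemma Lew_closed {X : Type*} {l : Filter X} [l.NeBot] {A B : X → C(G, ℝ)} {A0 B0 : C(G, ℝ)}
    (hA : Tendsto A l (𝓝 A0)) (hB : Tendsto B l (𝓝 B0)) (h : ∀ᶠ i in l, Lew P (A i) (B i)) :
    Lew P A0 B0 := by
  have c1 : Tendsto (fun i => pl (B i) * mi (A i) + pl (A i) * mi (B i)) l
      (𝓝 (pl B0 * mi A0 + pl A0 * mi B0)) :=
    (((pl_cont.tendsto _).comp hB).mul ((mi_cont.tendsto _).comp hA)).add
      (((pl_cont.tendsto _).comp hA).mul ((mi_cont.tendsto _).comp hB))
  have c2 : Tendsto (fun i => pl (A i) * mi (B i) - pl (B i) * mi (A i)) l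
      (𝓝 (pl A0 * mi B0 - pl B0 * mi A0)) :=
    (((pl_cont.tendsto _).comp hA).mul ((mi_cont.tendsto _).comp hB)).sub
      (((pl_cont.tendsto _).comp hB).mul ((mi_cont.tendsto _).comp hA))
  exact ⟨P.closed.mem_of_tendsto c1 (h.mono fun i hi => hi.1),
    P.closed.mem_of_tendsto c2 (h.mono fun i hi => hi.2)⟩

variable [SecondCountableTopology G] [MeasurableSpace G] [BorelSpace G]
  {μ : Measure G} [μ.IsAddHaarMeasure] [IsProbabilityMeasure μ]

/-- **influences are nonnegative** -/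
theorem infl (h2 : ∀ g : G, ∃ h : G, h + h = g)
    (hP : ∀ f ∈ P.S, 0 ≤ ∫ p, f p ∂(μ.prod μ)) {w A B C D : C(G, ℝ)}
    (hw : pl w * mi w ∈ P.S) (h : Lew P A B) (h' : Lew P C D) :
    (∫ x, w x * (A x * D x) ∂μ) * (∫ x, w x * (B x * C x) ∂μ) ≤
      (∫ x, w x * (B x * D x) ∂μ) * (∫ x, w x * (A x * C x) ∂μ) := by
  have h1 := hP _ (P.S.mul_mem hw (P.S.mul_mem h.2 h'.2))
  have hc : Continuous (fun p : G × G => w p.1 * w p.2 *
      ((A p.1 * B p.2 - B p.1 * A p.2) * (C p.1 * D p.2 - D p.1 * C p.2))) := by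
    fun_prop
  have hrot := integral_rot μ h2 hc
  have e1 : ∫ p, (pl w * mi w * ((pl A * mi B - pl B * mi A) *
      (pl C * mi D - pl D * mi C))) p ∂(μ.prod μ) =
      ∫ p : G × G, w p.1 * w p.2 *
      ((A p.1 * B p.2 - B p.1 * A p.2) * (C p.1 * D p.2 - D p.1 * C p.2)) ∂(μ.prod μ) := by
    rw [← hrot]
    rfl
  rw [e1] at h1
  have e2 : ∀ p : G × G, w p.1 * w p.2 *
      ((A p.1 * B p.2 - B p.1 * A p.2) * (C p.1 * D p.2 - D p.1 * C p.2)) =
      (w p.1 * (A p.1 * C p.1)) * (w p.2 * (B p.2 * D p.2)) -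
      (w p.1 * (A p.1 * D p.1)) * (w p.2 * (B p.2 * C p.2)) -
      ((w p.1 * (B p.1 * C p.1)) * (w p.2 * (A p.2 * D p.2)) -
      (w p.1 * (B p.1 * D p.1)) * (w p.2 * (A p.2 * C p.2))) := by
    intro p; ring
  simp_rw [e2] at h1
  have i : ∀ {f g : G → ℝ}, Continuous f → Continuous g →
      Integrable (fun p : G × G => f p.1 * g p.2) (μ.prod μ) := fun hf hg =>
    cint ((hf.comp continuous_fst).mul (hg.comp continuous_snd))
  have cAC : Continuous (fun x => w x * (A x * C x)) := by fun_prop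
  have cBD : Continuous (fun x => w x * (B x * D x)) := by fun_prop
  have cAD : Continuous (fun x => w x * (A x * D x)) := by fun_prop
  have cBC : Continuous (fun x => w x * (B x * C x)) := by fun_prop
  rw [int4 (i cAC cBD) (i cAD cBC) (i cBC cAD) (i cBD cAC),
    integral_prod_mul (fun x => w x * (A x * C x)) (fun x => w x * (B x * D x)),
    integral_prod_mul (fun x => w x * (A x * D x)) (fun x => w x * (B x * C x)),
    integral_prod_mul (fun x => w x * (B x * C x)) (fun x => w x * (A x * D x)),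
    integral_prod_mul (fun x => w x * (B x * D x)) (fun x => w x * (A x * C x))] at h1
  linarith

end ord

end Vale.Agent.P159.TM.H389
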