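import Vale.Agent.P159.TM.H389.Ms

/-!
Row ITTOT: the influence between two sets of spins is small (KPV inequality and the bound of
McBryan and Spencer).
-/

open MeasureTheory Filter Topology
open scoped BigOperators

set_option linter.all false

namespace Vale.Agent.P159.TM.H389

open Vale.Agent.P159 Vale.Agent.P159.T1.H42

variable {V : Type*} [Fintype V] {ι : Type*} [Fintype ι]

section coef

variable {J : ι → ℝ} {s t : ι → V} {S S' : Set V} {ψ : V → ℝ}

lemma two_cont (S' : Set V) : Continuous fun φ : T => (two S' φ : V → T) := by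
  refine continuous_pi fun v => ?_
  by_cases h : v ∈ S'
  · have : (fun φ : T => (two S' φ : V → T) v) = fun φ => φ := by
      funext φ; exact two_mem h
    rw [this]; exact continuous_id
  · have : (fun φ : T => (two S' φ : V → T) v) = fun _ => 0 := by
      funext φ; exact two_notMem h
    rw [this]; exact continuous_const

lemma Aph_cont {a : (V → T) → ℝ} (ha : Continuous a) (S S' : Set V) :
    Continuous (Aph a S S') :=
  (pin_int_cont (S ∪ S') ha).comp (two_cont S')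

lemma Aph_pos {a : (V → T) → ℝ} (ha : Continuous a) (h0 : ∀ θ, 0 < a θ) (S S' : Set V)
    (φ : T) : 0 < Aph a S S' φ :=
  ipos (ha.comp (pin_cont _ _)) fun θ => h0 _

/-- the average over the relative angle -/
lemma Zww_eq {a : (V → T) → ℝ} (ha : Continuous a) (hi : Inv a) (hd : Disjoint S S') {o o' : V}
    (ho : o ∈ S) (ho' : o' ∈ S') :
    Zww a S o S' o' = ∫ φ, Aph a S S' φ ∂(AddCircle.haarAddCircle : Measure T) := by
  have hoo : o' ≠ o := fun h1 => Set.disjoint_left.1 hd ho (h1 ▸ ho')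
  unfold Zww
  rw [int_inv ha hi (ctr2 S o S' o') o]
  have e1 : ∀ θ : V → T, a (fun v => pin {o} 0 θ (ctr2 S o S' o' v)) =
      a (pin (S ∪ S') (two S' (θ o')) θ) := by
    intro θ
    congr 1
    funext v
    by_cases hS : v ∈ S
    · have hX : v ∈ S ∪ S' := Or.inl hS
      have hS' : v ∉ S' := fun h => Set.disjoint_left.1 hd hS h
      rw [ctr2_left hd hS, pin_mem (by simp), pin_mem hX, two_notMem hS']
      rfl
    · by_cases hS' : v ∈ S'
      · have hX : v ∈ S ∪ S' := Or.inr hS'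
        rw [ctr2_right hd ho' hS', pin_notMem (by simpa using hoo), pin_mem hX, two_mem hS']
      · have hX : v ∉ S ∪ S' := fun h => h.elim hS hS'
        have hvo : v ∉ ({o} : Set V) := by
          simp only [Set.mem_singleton_iff]
          exact fun h1 => hS (h1 ▸ ho)
        rw [ctr2_off hS hS', pin_notMem hvo, pin_notMem hX]
  simp_rw [e1]
  have hcont : Continuous fun θ : V → T => a (pin (S ∪ S') (two S' (θ o')) θ) :=
    ha.comp ((pin_cont2 (S ∪ S')).comp
      (((two_cont S').comp (continuous_apply o')).prodMk continuous_id))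
  rw [← integral_pin {o'} hcont]
  have e2 : ∀ ζ : V → T, ∫ θ, a (pin (S ∪ S') (two S' (pin {o'} ζ θ o')) (pin {o'} ζ θ))
      ∂(torusHaar V) = Aph a S S' (ζ o') := by
    intro ζ
    unfold Aph
    refine integral_congr_ae (Eventually.of_forall fun θ => ?_)
    show a _ = a _
    congr 1
    funext v
    rw [pin_mem (S := ({o'} : Set V)) (φ := ζ) (θ := θ) (by simp)]
    by_cases hX : v ∈ S ∪ S'
    · rw [pin_mem hX, pin_mem hX]
    · rw [pin_notMem hX, pin_notMem hX]
      have hv : v ∉ ({o'} : Set V) := by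
        simp only [Set.mem_singleton_iff]
        exact fun h1 => hX (Or.inr (h1 ▸ ho'))
      exact pin_notMem hv
  simp_rw [e2]
  have hmp := measurePreserving_eval (fun _ : V => (AddCircle.haarAddCircle : Measure T)) o'
  have h1 := integral_map (μ := torusHaar V) (hmp.measurable).aemeasurable
    (f := fun φ => Aph a S S' φ) (Aph_cont ha S S').aestronglyMeasurable
  have hm : Measure.map (Function.eval o') (torusHaar V) =
      (AddCircle.haarAddCircle : Measure T) := hmp.map_eq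
  rw [hm] at h1
  exact h1.symm

/-- the integrand of the Fourier coefficient -/
noncomputable def gq (J : ι → ℝ) (s t : ι → V) (X : Set V) (ψ : V → ℝ) (q : ℤ) (z : ℂ)
    (θ : V → T) : ℂ :=
  Complex.exp (-(q : ℂ) * Complex.I * z) * gz J s t X ψ z θ

lemma gq_cont (J : ι → ℝ) (s t : ι → V) (X : Set V) (ψ : V → ℝ) (q : ℤ) :
    Continuous (Function.uncurry (gq J s t X ψ q)) := by
  have h2 : Continuous fun p : ℂ × (V → T) => Complex.exp (-(q : ℂ) * Complex.I * p.1) := by
    fun_prop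
  exact h2.mul (gz_cont J s t X ψ)

lemma gq_diff (J : ι → ℝ) (s t : ι → V) (X : Set V) (ψ : V → ℝ) (q : ℤ) (θ : V → T) :
    Differentiable ℂ fun z => gq J s t X ψ q z θ := by
  have h2 := gz_diff J s t X ψ θ
  have h3 : Differentiable ℂ fun z : ℂ => Complex.exp (-(q : ℂ) * Complex.I * z) := by fun_prop
  exact h3.mul h2

lemma gq_per (hd : Disjoint S S') (h0 : ∀ v ∈ S, ψ v = 0) (h1 : ∀ v ∈ S', ψ v = 1) (q : ℤ)
    (z : ℂ) : ∫ θ, gq J s t (S ∪ S') ψ q (z + (2 * Real.pi : ℝ)) θ ∂(torusHaar V) =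
      ∫ θ, gq J s t (S ∪ S') ψ q z θ ∂(torusHaar V) := by
  have e : Complex.exp (-(q : ℂ) * Complex.I * (z + (2 * Real.pi : ℝ))) =
      Complex.exp (-(q : ℂ) * Complex.I * z) := by
    have h2 : -(q : ℂ) * Complex.I * (z + (2 * Real.pi : ℝ)) =
        -(q : ℂ) * Complex.I * z + ((-q : ℤ) : ℂ) * (2 * Real.pi * Complex.I) := by
      push_cast; ring
    rw [h2, Complex.exp_add, Complex.exp_int_mul_two_pi_mul_I, mul_one]
  unfold gq
  rw [e, integral_const_mul, integral_const_mul, int_gz_per hd h0 h1]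

/-- the Fourier coefficient -/
lemma coef_eq (hd : Disjoint S S') (h0 : ∀ v ∈ S, ψ v = 0) (h1 : ∀ v ∈ S', ψ v = 1) (q : ℤ) :
    fourierCoeff (fun φ : T => ((Aph (cexp (EN J s t)) S S' φ : ℝ) : ℂ)) q =
      (1 / (2 * Real.pi) : ℝ) • ∫ x in (0 : ℝ)..(2 * Real.pi),
        ∫ θ, gq J s t (S ∪ S') ψ q (x : ℂ) θ ∂(torusHaar V) := by
  rw [fourierCoeff_eq_intervalIntegral _ q 0, zero_add]
  congr 1
  refine intervalIntegral.integral_congr fun x _ => ?_
  show @fourier (2 * Real.pi) (-q) (x : T) •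
    ((Aph (cexp (EN J s t)) S S' (x : T) : ℝ) : ℂ) = _
  rw [fourier_coe_apply, smul_eq_mul, ← int_gz_real (J := J) (s := s) (t := t) hd h0 h1 x,
    ← integral_const_mul]
  refine integral_congr_ae (Eventually.of_forall fun θ => ?_)
  show _ = Complex.exp (-(q : ℂ) * Complex.I * x) * gz J s t (S ∪ S') ψ x θ
  congr 2
  have hpi : (Real.pi : ℂ) ≠ 0 := by exact_mod_cast Real.pi_ne_zero
  push_cast
  field_simp

lemma avg_eq (f : T → ℝ) :
    ∫ φ, f φ ∂(AddCircle.haarAddCircle : Measure T) =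
      (1 / (2 * Real.pi)) * ∫ x in (0 : ℝ)..(2 * Real.pi), f (x : T) := by
  have h2 := AddCircle.intervalIntegral_preimage (2 * Real.pi) 0 f
  rw [zero_add] at h2
  rw [h2, AddCircle.integral_haarAddCircle, smul_eq_mul, one_div]

lemma gq_norm (hJ : ∀ i, 0 ≤ J i) (X : Set V) (q : ℤ) (x σ : ℝ) (θ : V → T) :
    ‖gq J s t X ψ q ((x : ℂ) + σ * Complex.I) θ‖ ≤
      Real.exp (q * σ + Ecost J s t ψ σ) * ‖gz J s t X ψ (x : ℂ) θ‖ := by
  unfold gq
  rw [norm_mul, Complex.norm_exp]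
  have e3 : (-(q : ℂ) * Complex.I * ((x : ℂ) + σ * Complex.I)).re = q * σ := by
    have : -(q : ℂ) * Complex.I * ((x : ℂ) + σ * Complex.I) =
        ((q * σ : ℝ) : ℂ) + ((-q * x : ℝ) : ℂ) * Complex.I := by
      push_cast
      linear_combination (-(q : ℂ) * σ) * Complex.I_sq
    rw [this]
    simp
  rw [e3, Real.exp_add, mul_assoc]
  exact mul_le_mul_of_nonneg_left (gz_norm hJ s t _ ψ x σ θ) (Real.exp_pos _).le

lemma int_norm_gz (hd : Disjoint S S') (h0 : ∀ v ∈ S, ψ v = 0) (h1 : ∀ v ∈ S', ψ v = 1)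
    (x : ℝ) : ∫ θ, ‖gz J s t (S ∪ S') ψ (x : ℂ) θ‖ ∂(torusHaar V) =
      Aph (cexp (EN J s t)) S S' (x : T) := by
  have h8 := int_gz_real (J := J) (s := s) (t := t) hd h0 h1 x
  have h9 : ∀ θ, gz J s t (S ∪ S') ψ (x : ℂ) θ =
      ((‖gz J s t (S ∪ S') ψ (x : ℂ) θ‖ : ℝ) : ℂ) := by
    intro θ
    rw [gz_coe, Complex.norm_real, Real.norm_eq_abs, abs_of_pos (Real.exp_pos _)]
  rw [integral_congr_ae (Eventually.of_forall h9), integral_complex_ofReal] at h8
  exact_mod_cast h8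

attribute [local irreducible] gq gz

lemma gq_cont1 (J : ι → ℝ) (s t : ι → V) (X : Set V) (ψ : V → ℝ) (q : ℤ) (z : ℂ) :
    Continuous fun θ => gq J s t X ψ q z θ := by
  have h : Continuous fun θ : V → T => (z, θ) := by fun_prop
  exact (gq_cont J s t X ψ q).comp h

lemma gz_cont1 (J : ι → ℝ) (s t : ι → V) (X : Set V) (ψ : V → ℝ) (z : ℂ) :
    Continuous fun θ => gz J s t X ψ z θ := by
  have h : Continuous fun θ : V → T => (z, θ) := by fun_prop
  exact (gz_cont J s t X ψ).comp h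

lemma gq_cont3 (J : ι → ℝ) (s t : ι → V) (X : Set V) (ψ : V → ℝ) (q : ℤ) (σ : ℝ) :
    Continuous fun x : ℝ => ∫ θ, gq J s t X ψ q ((x : ℂ) + σ * Complex.I) θ ∂(torusHaar V) := by
  have h : Continuous fun p : ℝ × (V → T) => ((p.1 : ℂ) + σ * Complex.I, p.2) := by fun_prop
  have h3 : Continuous (Function.uncurry fun (x : ℝ) (θ : V → T) =>
      gq J s t X ψ q ((x : ℂ) + σ * Complex.I) θ) := (gq_cont J s t X ψ q).comp h
  have h4 := continuous_parametric_integral_of_continuous (μ := torusHaar V) h3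
    (isCompact_univ (X := V → T))
  simpa using h4

lemma int_gq_le (hJ : ∀ i, 0 ≤ J i) (hd : Disjoint S S') (h0 : ∀ v ∈ S, ψ v = 0)
    (h1 : ∀ v ∈ S', ψ v = 1) (q : ℤ) (x σ : ℝ) :
    ‖∫ θ, gq J s t (S ∪ S') ψ q ((x : ℂ) + σ * Complex.I) θ ∂(torusHaar V)‖ ≤
      Real.exp (q * σ + Ecost J s t ψ σ) * Aph (cexp (EN J s t)) S S' (x : T) := by
  have h6 := gq_cont1 J s t (S ∪ S') ψ q ((x : ℂ) + σ * Complex.I)
  have h7 := gz_cont1 J s t (S ∪ S') ψ (x : ℂ)
  rw [← int_norm_gz (J := J) (s := s) (t := t) hd h0 h1 x, ← integral_const_mul]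
  exact (norm_integral_le_integral_norm _).trans
    (int_mono_ae h6.norm (continuous_const.mul h7.norm) (gq_norm hJ (S ∪ S') q x σ))

/-- Fourier coefficients of the partition function of the annulus -/
theorem coef_le (hJ : ∀ i, 0 ≤ J i) (hd : Disjoint S S') (h0 : ∀ v ∈ S, ψ v = 0)
    (h1 : ∀ v ∈ S', ψ v = 1) (q : ℤ) (σ : ℝ) :
    ‖fourierCoeff (fun φ : T => ((Aph (cexp (EN J s t)) S S' φ : ℝ) : ℂ)) q‖ ≤
      Real.exp (q * σ + Ecost J s t ψ σ) *
        ∫ φ, Aph (cexp (EN J s t)) S S' φ ∂(AddCircle.haarAddCircle : Measure T) := by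
  have hs := shift (μ := torusHaar V) (gq_cont J s t (S ∪ S') ψ q) (gq_diff J s t (S ∪ S') ψ q)
    (gq_per hd h0 h1 q) σ
  have hpi : (0 : ℝ) < 1 / (2 * Real.pi) := by positivity
  rw [coef_eq hd h0 h1, hs, avg_eq, norm_smul, Real.norm_eq_abs, abs_of_pos hpi,
    ← mul_assoc, mul_comm (Real.exp _), mul_assoc]
  refine mul_le_mul_of_nonneg_left ?_ hpi.le
  have hAc : Continuous fun x : ℝ => Aph (cexp (EN J s t)) S S' (x : T) :=
    (Aph_cont (cexp (EN J s t)).continuous S S').comp (AddCircle.continuous_mk' _)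
  rw [← intervalIntegral.integral_const_mul]
  refine (intervalIntegral.norm_integral_le_integral_norm (by positivity)).trans ?_
  have hGc := gq_cont3 J s t (S ∪ S') ψ q σ
  exact intervalIntegral.integral_mono_on (by positivity) (hGc.norm.intervalIntegrable _ _)
    ((continuous_const.mul hAc).intervalIntegrable _ _) fun x _ => int_gq_le hJ hd h0 h1 q x σ

end coef

/-! ### the deviation of the partition function from its average -/

lemma hasSum_int_geo {ρ : ℝ} (h0 : 0 ≤ ρ) (h1 : ρ < 1) :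
    HasSum (fun q : ℤ => ρ ^ q.natAbs - if q = 0 then 1 else 0) (2 * ρ / (1 - ρ)) := by
  have ha : HasSum (fun n : ℕ => ρ ^ ((n : ℤ)).natAbs) (1 - ρ)⁻¹ := by
    simpa using hasSum_geometric_of_lt_one h0 h1
  have hb : HasSum (fun n : ℕ => ρ ^ (-((n : ℤ) + 1)).natAbs) (ρ * (1 - ρ)⁻¹) := by
    have h := (hasSum_geometric_of_lt_one h0 h1).mul_left ρ
    have e : (fun n : ℕ => ρ ^ (-((n : ℤ) + 1)).natAbs) = fun n : ℕ => ρ * ρ ^ n := by
      funext n
      have : (-((n : ℤ) + 1)).natAbs = n + 1 := by omega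
      rw [this, pow_succ']
    rw [e]
    exact h
  have h := HasSum.of_nat_of_neg_add_one (f := fun q : ℤ => ρ ^ q.natAbs) ha hb
  have h2 := h.sub (hasSum_ite_eq (0 : ℤ) (1 : ℝ))
  have e : (1 - ρ)⁻¹ + ρ * (1 - ρ)⁻¹ - 1 = 2 * ρ / (1 - ρ) := by
    have : (1 - ρ) ≠ 0 := by linarith
    field_simp
    ring
  rw [e] at h2
  exact h2

theorem dev_abs {f : C(T, ℂ)} {B ρ : ℝ} (h0 : 0 ≤ ρ) (h1 : ρ < 1)
    (hb : ∀ q : ℤ, ‖fourierCoeff (f : T → ℂ) q‖ ≤ B * ρ ^ q.natAbs) (φ : T) :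
    ‖f φ - fourierCoeff (f : T → ℂ) 0‖ ≤ B * (2 * ρ / (1 - ρ)) := by
  have hB : 0 ≤ B := by
    have h := (norm_nonneg _).trans (hb 0)
    simpa using h
  have hg := (hasSum_int_geo h0 h1).mul_left B
  have hs : Summable (fourierCoeff (f : T → ℂ)) := by
    have h2 : Summable fun q : ℤ => B * ρ ^ q.natAbs := by
      have h3 := hg.add ((hasSum_ite_eq (0 : ℤ) (1 : ℝ)).mul_left B)
      refine h3.summable.congr fun q => ?_
      ring
    exact Summable.of_norm_bounded h2 hb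
  have hf := has_pointwise_sum_fourier_series_of_summable hs φ
  have hf2 := hf.sub (hasSum_ite_eq (0 : ℤ) (fourierCoeff (f : T → ℂ) 0))
  rw [← hf2.tsum_eq]
  refine tsum_of_norm_bounded hg fun q => ?_
  by_cases hq : q = 0
  · subst hq
    simp
  · rw [if_neg hq, if_neg hq, sub_zero, sub_zero, norm_smul]
    have h4 : ‖(fourier q φ : ℂ)‖ = 1 := by
      rw [fourier_apply]
      exact Circle.norm_coe _
    rw [h4, mul_one]
    exact hb q

theorem Aph_dev {J : ι → ℝ} {s t : ι → V} {S S' : Set V} {ψ : V → ℝ} (hJ : ∀ i, 0 ≤ J i)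
    (hd : Disjoint S S') (h0 : ∀ v ∈ S, ψ v = 0) (h1 : ∀ v ∈ S', ψ v = 1) {τ : ℝ} (hτ : 0 < τ)
    (φ : T) :
    |Aph (cexp (EN J s t)) S S' φ -
      ∫ φ, Aph (cexp (EN J s t)) S S' φ ∂(AddCircle.haarAddCircle : Measure T)| ≤
      (2 * Real.exp (Ecost J s t ψ τ - τ) / (1 - Real.exp (-τ))) *
        ∫ φ, Aph (cexp (EN J s t)) S S' φ ∂(AddCircle.haarAddCircle : Measure T) := by
  set A := Aph (cexp (EN J s t)) S S' with hA
  have hAc : Continuous A := Aph_cont (cexp (EN J s t)).continuous S S'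
  set f : C(T, ℂ) := ⟨fun φ => (A φ : ℂ), Complex.continuous_ofReal.comp hAc⟩ with hf
  set M := ∫ φ, A φ ∂(AddCircle.haarAddCircle : Measure T) with hM
  have hρ0 : 0 ≤ Real.exp (-τ) := (Real.exp_pos _).le
  have hρ1 : Real.exp (-τ) < 1 := by
    rw [← Real.exp_zero]
    exact Real.exp_lt_exp.2 (by linarith)
  have hb : ∀ q : ℤ, ‖fourierCoeff (f : T → ℂ) q‖ ≤
      (Real.exp (Ecost J s t ψ τ) * M) * Real.exp (-τ) ^ q.natAbs := by
    intro q
    have e0 : Real.exp (-τ) ^ q.natAbs = Real.exp (-((q.natAbs : ℝ) * τ)) := by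
      rw [← Real.exp_nat_mul]
      congr 1
      ring
    rcases le_total 0 q with hq | hq
    · have h := coef_le (ψ := ψ) (s := s) (t := t) hJ hd h0 h1 q (-τ)
      rw [Ecost_neg, Real.exp_add] at h
      have e1 : ((q : ℤ) : ℝ) = (q.natAbs : ℝ) := by
        rw [← Int.cast_natCast, Int.natAbs_of_nonneg hq]
      rw [e0, ← e1]
      refine h.trans (le_of_eq ?_)
      rw [show ((q : ℤ) : ℝ) * -τ = -((q : ℝ) * τ) by ring]
      ring
    · have h := coef_le (ψ := ψ) (s := s) (t := t) hJ hd h0 h1 q τ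
      rw [Real.exp_add] at h
      have e1 : ((q : ℤ) : ℝ) = -(q.natAbs : ℝ) := by
        have h2 : (q.natAbs : ℤ) = -q := Int.ofNat_natAbs_of_nonpos hq
        have h3 : ((q.natAbs : ℤ) : ℝ) = ((-q : ℤ) : ℝ) := by rw [h2]
        rw [Int.cast_natCast, Int.cast_neg] at h3
        linarith
      rw [e0]
      refine h.trans (le_of_eq ?_)
      rw [show ((q : ℤ) : ℝ) * τ = -((q.natAbs : ℝ) * τ) by rw [e1]; ring]
      ring
  have h := dev_abs hρ0 hρ1 hb φ
  have e2 : fourierCoeff (f : T → ℂ) 0 = (M : ℂ) := by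
    unfold fourierCoeff
    rw [hM, ← integral_complex_ofReal]
    refine integral_congr_ae (Eventually.of_forall fun x => ?_)
    show (fourier (-0) x : ℂ) • ((A x : ℝ) : ℂ) = ((A x : ℝ) : ℂ)
    simp
  rw [e2] at h
  have e3 : f φ - (M : ℂ) = ((A φ - M : ℝ) : ℂ) := by
    push_cast
    rfl
  rw [e3, Complex.norm_real, Real.norm_eq_abs] at h
  refine h.trans (le_of_eq ?_)
  rw [show Ecost J s t ψ τ - τ = Ecost J s t ψ τ + -τ by ring, Real.exp_add]
  ring

/-! ### the inequality of Kunz, Pfister and Vuillermot -/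

section kpv

variable {J : ι → ℝ} {s t : ι → V} {S S' : Set V}

lemma PM_even_add {f g : C(V → T, ℝ)} (hf : (PM V).Even f) (hg : (PM V).Even g) :
    (PM V).Even (f + g) := by
  have e : pl (f + g) + mi (f + g) = (pl f + mi f) + (pl g + mi g) := by
    ext p; simp; ring
  unfold Pos.Even
  rw [e]
  exact (PM V).S.add_mem hf hg

lemma EN_even (hJ : ∀ i, 0 ≤ J i) (s t : ι → V) : (PM V).Even (EN J s t) := by
  have e : EN J s t = ∑ i, ContinuousMap.const (V → T) (J i) *
      (cc (sp (s i)) * cc (sp (t i)) + ss (sp (s i)) * ss (sp (t i))) := by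
    ext θ
    rw [EN_apply, ContinuousMap.coe_sum, Finset.sum_apply]
    refine Finset.sum_congr rfl fun i _ => ?_
    show J i * cosT (θ (s i) - θ (t i)) = J i * (cosT (θ (s i)) * cosT (θ (t i)) +
      sinT (θ (s i)) * sinT (θ (t i)))
    congr 1
    have h : cosT (θ (s i) + -θ (t i)) =
      cosT (θ (s i)) * cosT (-θ (t i)) - sinT (θ (s i)) * sinT (-θ (t i)) :=
      Real.Angle.cos_add _ _
    rw [sub_eq_add_neg, h, cosT_neg, sinT_neg]
    ring
  rw [e]
  have h0 : (PM V).Even 0 := by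
    have e : pl (0 : C(V → T, ℝ)) + mi 0 = 0 := by ext p; simp
    unfold Pos.Even
    rw [e]; exact (PM V).S.zero_mem
  refine Finset.sum_induction _ (fun f => (PM V).Even f) (fun f g => PM_even_add) h0
    fun i _ => ?_
  have h1 : (PM V).Even (cc (sp (s i)) * cc (sp (t i)) + ss (sp (s i)) * ss (sp (t i))) :=
    PM_even_add (Subsemiring.mul_mem _ (PM_cos _) (PM_cos _)).1
      (Subsemiring.mul_mem _ (PM_sin _) (PM_sin _)).1
  have e2 : pl (ContinuousMap.const (V → T) (J i) *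
      (cc (sp (s i)) * cc (sp (t i)) + ss (sp (s i)) * ss (sp (t i)))) +
      mi (ContinuousMap.const (V → T) (J i) *
      (cc (sp (s i)) * cc (sp (t i)) + ss (sp (s i)) * ss (sp (t i)))) =
      ContinuousMap.const ((V → T) × (V → T)) (J i) *
      (pl (cc (sp (s i)) * cc (sp (t i)) + ss (sp (s i)) * ss (sp (t i))) +
      mi (cc (sp (s i)) * cc (sp (t i)) + ss (sp (s i)) * ss (sp (t i)))) := by
    ext p; simp; ring
  unfold Pos.Even
  rw [e2]
  exact (PM V).S.mul_mem ((PM V).const _ (hJ i)) h1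

/-- the angle `π / 2` -/
noncomputable def hp : T := ((Real.pi / 2 : ℝ) : T)

/-- **KPV inequality for the annulus** -/
theorem kpv_ann (hJ : ∀ i, 0 ≤ J i) (s t : ι → V) (hd : Disjoint S S') :
    Aph (cexp (EN J s t)) S S' hp * (∫ θ, cexp (EN J s t) θ ∂(torusHaar V)) ≤
      (∫ θ, cexp (EN J s t) (pin S 0 θ) ∂(torusHaar V)) *
        ∫ θ, cexp (EN J s t) (pin S' 0 θ) ∂(torusHaar V) := by
  classical
  set a : C(V → T, ℝ) := cexp (EN J s t) with ha
  set F : Finset V := Finset.univ.filter (fun v => v ∈ S) with hF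
  set F' : Finset V := Finset.univ.filter (fun v => v ∈ S') with hF'
  have hFS : (F : Set V) = S := by ext v; simp [hF]
  have hFS' : (F' : Set V) = S' := by ext v; simp [hF']
  have hdF : Disjoint F F' := by
    rw [Finset.disjoint_left]
    intro v h1 h2
    exact Set.disjoint_left.1 hd (by simpa [hF] using h1) (by simpa [hF'] using h2)
  have hFF : ((F ∪ F' : Finset V) : Set V) = S ∪ S' := by
    rw [Finset.coe_union, hFS, hFS']
  set τ : V → T := two S' hp with hτ
  have hps : ps F τ ∈ (PM V).cosS := by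
    have e : ps F τ = ∑ v ∈ F, cc (sp v) := by
      ext θ
      rw [ContinuousMap.coe_sum, Finset.sum_apply, ps_apply]
      refine Finset.sum_congr rfl fun v hv => ?_
      show cosT (θ v - τ v) = cosT (θ v)
      have h1 : v ∈ S := by simpa [hF] using hv
      rw [hτ, two_notMem fun h2 => Set.disjoint_left.1 hd h1 h2, sub_zero]
    rw [e]
    exact Subsemiring.sum_mem _ fun v _ => PM_cos _
  have hps' : ps F' τ ∈ (PM V).sinS := by
    have e : ps F' τ = ∑ v ∈ F', ss (sp v) := by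
      ext θ
      rw [ContinuousMap.coe_sum, Finset.sum_apply, ps_apply]
      refine Finset.sum_congr rfl fun v hv => ?_
      show cosT (θ v - τ v) = sinT (θ v)
      have h1 : v ∈ S' := by simpa [hF'] using hv
      rw [hτ, two_mem h1]
      exact Real.Angle.cos_sub_pi_div_two (θ v)
    rw [e]
    exact Subsemiring.sum_mem _ fun v _ => PM_sin _
  have key : (∫ θ, a (pin (S ∪ S') τ θ) ∂(torusHaar V)) * (∫ θ, a θ ∂(torusHaar V)) ≤
      (∫ θ, a (pin S τ θ) ∂(torusHaar V)) * ∫ θ, a (pin S' τ θ) ∂(torusHaar V) := by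
    have l1 := peak (F ∪ F') τ a.continuous
    have l2 := peak F τ a.continuous
    have l3 := peak F' τ a.continuous
    rw [hFF] at l1
    rw [hFS] at l2
    rw [hFS'] at l3
    refine le_of_tendsto_of_tendsto' (l1.mul_const _) (l2.mul l3) fun n => ?_
    have hn1 : ContinuousMap.const (V → T) (n : ℝ) ∈ (PM V).cosS :=
      Pos.cosS_const _ _ (Nat.cast_nonneg n)
    have hn2 : ContinuousMap.const (V → T) (n : ℝ) ∈ (PM V).sinS :=
      Pos.sinS_const _ _ (Nat.cast_nonneg n)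
    have h := kpv (P := PM V) (μ := torusHaar V) pi_div2 PM_int (H := EN J s t)
      (F := PK n F τ) (K := PK n F' τ) (EN_even hJ s t)
      (Pos.cexp_cosS _ (Subsemiring.mul_mem _ hn1 hps))
      (Pos.cexp_sinS _ (Subsemiring.mul_mem _ hn2 hps'))
    rw [NN_union n hdF, PK_union n hdF]
    have q : ∀ S, 0 < NN n S τ := fun S => NN_pos n S τ
    have e1 : ∫ θ, (PK n F τ * PK n F' τ) θ * a θ ∂(torusHaar V) =
        ∫ x, cexp (EN J s t) x * (PK n F τ x * PK n F' τ x) ∂(torusHaar V) := by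
      refine integral_congr_ae (Eventually.of_forall fun θ => ?_)
      show PK n F τ θ * PK n F' τ θ * cexp (EN J s t) θ = _
      ring
    have e2 : ∀ S, ∫ θ, PK n S τ θ * a θ ∂(torusHaar V) =
        ∫ x, cexp (EN J s t) x * PK n S τ x ∂(torusHaar V) := by
      intro S
      refine integral_congr_ae (Eventually.of_forall fun θ => ?_)
      show PK n S τ θ * cexp (EN J s t) θ = _
      ring
    rw [e1, e2, e2]
    calc (NN n F τ * NN n F' τ)⁻¹ *
          (∫ x, cexp (EN J s t) x * (PK n F τ x * PK n F' τ x) ∂(torusHaar V)) *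
          ∫ θ, a θ ∂(torusHaar V)
        = (NN n F τ * NN n F' τ)⁻¹ *
          ((∫ x, cexp (EN J s t) x * (PK n F τ x * PK n F' τ x) ∂(torusHaar V)) *
          ∫ θ, a θ ∂(torusHaar V)) := by ring
      _ ≤ (NN n F τ * NN n F' τ)⁻¹ * ((∫ x, cexp (EN J s t) x * PK n F τ x ∂(torusHaar V)) *
          ∫ x, cexp (EN J s t) x * PK n F' τ x ∂(torusHaar V)) :=
          mul_le_mul_of_nonneg_left h (inv_nonneg.2 (mul_nonneg (q _).le (q _).le))
      _ = _ := by rw [mul_inv]; ring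
  have f1 : ∀ θ : V → T, pin S τ θ = pin S 0 θ := by
    intro θ
    funext v
    by_cases h : v ∈ S
    · rw [pin_mem h, pin_mem h, hτ, two_notMem fun h2 => Set.disjoint_left.1 hd h h2]
      rfl
    · rw [pin_notMem h, pin_notMem h]
  have f2 : ∫ θ, a (pin S' τ θ) ∂(torusHaar V) = ∫ θ, a (pin S' 0 θ) ∂(torusHaar V) := by
    rw [← integral_add_right_eq_self (fun θ => a (pin S' τ θ)) (fun _ => hp)]
    refine integral_congr_ae (Eventually.of_forall fun θ => ?_)
    show a (pin S' τ (θ + fun _ => hp)) = a (pin S' 0 θ)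
    have h1 : pin S' τ (θ + fun _ => hp) = pin S' 0 θ + fun _ => hp := by
      funext v
      by_cases h : v ∈ S'
      · rw [Pi.add_apply, pin_mem h, pin_mem h, hτ, two_mem h]
        simp
      · rw [Pi.add_apply, pin_notMem h, pin_notMem h]
        rfl
    rw [h1]
    exact (EN_inv J s t).cexp _ _
  simp_rw [f1] at key
  rw [f2] at key
  exact key

/-- **(TTOT)** -/
theorem ttot {ψ : V → ℝ} (hJ : ∀ i, 0 ≤ J i) (hd : Disjoint S S') {o o' : V} (ho : o ∈ S)
    (ho' : o' ∈ S') (h0 : ∀ v ∈ S, ψ v = 0) (h1 : ∀ v ∈ S', ψ v = 1) {τ r : ℝ} (hτ : 0 < τ)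
    (hr : 2 * Real.exp (Ecost J s t ψ τ - τ) / (1 - Real.exp (-τ)) ≤ r) (hr1 : r < 1) :
    Zww (cexp (EN J s t)) S o S' o' * (∫ θ, cexp (EN J s t) θ ∂(torusHaar V)) ≤
      (1 - r)⁻¹ * ((∫ θ, cexp (EN J s t) (pin S 0 θ) ∂(torusHaar V)) *
        ∫ θ, cexp (EN J s t) (pin S' 0 θ) ∂(torusHaar V)) := by
  have hk := kpv_ann (S := S) (S' := S') hJ s t hd
  have hdev := Aph_dev (ψ := ψ) (s := s) (t := t) hJ hd h0 h1 hτ hp
  rw [← Zww_eq (cexp (EN J s t)).continuous (EN_inv J s t).cexp hd ho ho'] at hdev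
  set Z := Zww (cexp (EN J s t)) S o S' o' with hZ
  have hZ0 : 0 < Z := ipos ((cexp (EN J s t)).continuous.comp (relab_cont _))
    fun θ => Real.exp_pos _
  have h2 : (1 - r) * Z ≤ Aph (cexp (EN J s t)) S S' hp := by
    have h3 := (abs_le.1 hdev).1
    have h4 := mul_le_mul_of_nonneg_right hr hZ0.le
    linarith
  have hzf : 0 < ∫ θ, cexp (EN J s t) θ ∂(torusHaar V) :=
    ipos (cexp (EN J s t)).continuous fun θ => Real.exp_pos _
  have h5 : (1 - r) * (Z * ∫ θ, cexp (EN J s t) θ ∂(torusHaar V)) ≤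
      (∫ θ, cexp (EN J s t) (pin S 0 θ) ∂(torusHaar V)) *
        ∫ θ, cexp (EN J s t) (pin S' 0 θ) ∂(torusHaar V) := by
    calc _ = ((1 - r) * Z) * ∫ θ, cexp (EN J s t) θ ∂(torusHaar V) := by ring
      _ ≤ Aph (cexp (EN J s t)) S S' hp * ∫ θ, cexp (EN J s t) θ ∂(torusHaar V) :=
        mul_le_mul_of_nonneg_right h2 hzf.le
      _ ≤ _ := hk
  rw [inv_mul_eq_div, le_div_iff₀ (by linarith), mul_comm]
  exact h5

end kpv

end Vale.Agent.P159.TM.H389
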