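import Vale.Agent.P159.TM.H389.Ord

/-!
Row RM / ISAND (spin form).  Wired sets of spins as limits of strong couplings; rotation
invariance; energies of finite graphs.
-/

open MeasureTheory Filter Topology
open scoped BigOperators

set_option linter.all false

namespace Vale.Agent.P159.TM.H389

open Vale.Agent.P159 Vale.Agent.P159.T1.H42

variable {V : Type*} [Fintype V]

/-- rotation invariance -/
def Inv (f : (V → T) → ℝ) : Prop := ∀ (θ : V → T) (a : T), f (θ + fun _ => a) = f θ

/-- energy of a finite graph -/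
noncomputable def EN {ι : Type*} [Fintype ι] (J : ι → ℝ) (s t : ι → V) : C(V → T, ℝ) :=
  ∑ i, ContinuousMap.const (V → T) (J i) * cc (grad (s i) (t i))

lemma EN_apply {ι : Type*} [Fintype ι] (J : ι → ℝ) (s t : ι → V) (θ : V → T) :
    EN J s t θ = ∑ i, J i * cosT (θ (s i) - θ (t i)) := by
  unfold EN
  rw [ContinuousMap.coe_sum, Finset.sum_apply]
  rfl

lemma EN_cos {ι : Type*} [Fintype ι] {J : ι → ℝ} (hJ : ∀ i, 0 ≤ J i) (s t : ι → V) :
    EN J s t ∈ (PG (V → T)).cosS := by
  unfold EN
  refine Subsemiring.sum_mem _ fun i _ => ?_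
  exact Subsemiring.mul_mem _ (Pos.cosS_const _ _ (hJ i)) (PG_cos _)

lemma EN_inv {ι : Type*} [Fintype ι] (J : ι → ℝ) (s t : ι → V) : Inv (EN J s t) := by
  intro θ a
  rw [EN_apply, EN_apply]
  refine Finset.sum_congr rfl fun i _ => ?_
  simp

lemma Inv.mul {f g : (V → T) → ℝ} (hf : Inv f) (hg : Inv g) : Inv fun θ => f θ * g θ := by
  intro θ a
  show f _ * g _ = f θ * g θ
  rw [hf, hg]

lemma Inv.cexp {H : C(V → T, ℝ)} (h : Inv H) : Inv (cexp H) := by
  intro θ a
  show Real.exp (H _) = Real.exp (H _)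
  rw [h]

lemma Inv.sub {f : (V → T) → ℝ} (hf : Inv f) (θ : V → T) (a : T) :
    f (θ - fun _ => a) = f θ := by
  rw [sub_eq_add_neg]
  exact hf θ (-a)

/-- integral of a rotation invariant function: one spin may be put to `0`, also after a
relabelling of the spins -/
lemma int_inv {f : (V → T) → ℝ} (hc : Continuous f) (hf : Inv f) (c : V → V) (o : V) :
    ∫ θ, f (fun v => θ (c v)) ∂(torusHaar V) =
      ∫ θ, f (fun v => pin {o} 0 θ (c v)) ∂(torusHaar V) := by
  classical
  -- on the right hand side rotate by the spin at `o`, which is free there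
  have h1 : ∫ θ, f (fun v => pin {o} 0 θ (c v)) ∂(torusHaar V) =
      ∫ θ, f (fun v => pin {o} 0 (θ - fun _ => θ o) (c v)) ∂(torusHaar V) := by
    set R : (V → T) →+ (V → T) :=
      { toFun := fun θ => fun v => if v = o then θ o else θ v - θ o
        map_zero' := by funext v; simp
        map_add' := by
          intro x y
          funext v
          by_cases h : v = o
          · simp [h]
          · simp only [h, if_false, Pi.add_apply]
            abel } with hR
    have Rc : Continuous R := by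
      refine continuous_pi fun v => ?_
      by_cases h : v = o
      · have : (fun θ : V → T => R θ v) = fun θ => θ o := by
          funext θ; simp [hR, h]
        rw [this]; exact continuous_apply o
      · have : (fun θ : V → T => R θ v) = fun θ => θ v - θ o := by
          funext θ; simp [hR, h]
        rw [this]; exact (continuous_apply v).sub (continuous_apply o)
    have Rmp : MeasurePreserving R (torusHaar V) (torusHaar V) := by
      apply AddMonoidHom.measurePreserving
      · exact Rc
      · intro θ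
        refine ⟨fun v => if v = o then θ o else θ v + θ o, ?_⟩
        funext v
        by_cases h : v = o
        · simp [hR, h]
        · simp [hR, h]
      · simp
    have hcont : Continuous fun θ : V → T => f (fun v => pin {o} 0 θ (c v)) :=
      hc.comp (continuous_pi fun v => (continuous_apply (c v)).comp (pin_cont {o} 0))
    have h2 := integral_map (μ := torusHaar V) Rmp.measurable.aemeasurable
      (f := fun θ => f (fun v => pin {o} 0 θ (c v))) hcont.aestronglyMeasurable
    rw [Rmp.map_eq] at h2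
    rw [h2]
    refine integral_congr_ae (Eventually.of_forall fun θ => ?_)
    show f (fun v => pin {o} 0 (R θ) (c v)) = f (fun v => pin {o} 0 (θ - fun _ => θ o) (c v))
    congr 1
    funext v
    by_cases h : c v = o
    · rw [pin_mem (by simp [h]), pin_mem (by simp [h])]
    · rw [pin_notMem (by simpa using h), pin_notMem (by simpa using h)]
      simp [hR, h]
  rw [h1]
  refine integral_congr_ae (Eventually.of_forall fun θ => ?_)
  show f (fun v => θ (c v)) = f (fun v => pin {o} 0 (θ - fun _ => θ o) (c v))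
  have h3 : (fun v => pin {o} 0 (θ - fun _ => θ o) (c v)) =
      (fun v => θ (c v)) - fun _ => θ o := by
    funext v
    by_cases h : c v = o
    · rw [pin_mem (by simp [h])]
      simp [h]
    · rw [pin_notMem (by simpa using h)]
      rfl
  rw [h3, hf.sub]

/-- the sites moved by the wiring `c` -/
noncomputable def mv (c : V → V) : Finset V := by
  classical
  exact Finset.univ.filter (fun v => c v ≠ v)

lemma mem_mv {c : V → V} {v : V} : v ∈ mv c ↔ c v ≠ v := by
  classical
  simp [mv]

/-- the strong couplings of the wiring `c` -/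
noncomputable def WR (n : ℕ) (c : V → V) : C(V → T, ℝ) :=
  cexp (∑ v ∈ mv c, ContinuousMap.const (V → T) (n : ℝ) * cc (grad v (c v)))

lemma WR_cos (n : ℕ) (c : V → V) : WR n c ∈ (PG (V → T)).cosS := by
  refine Pos.cexp_cosS _ (Subsemiring.sum_mem _ fun v _ => ?_)
  exact Subsemiring.mul_mem _ (Pos.cosS_const _ _ (Nat.cast_nonneg n)) (PG_cos _)

lemma WR_apply (n : ℕ) (c : V → V) (θ : V → T) :
    WR n c θ = Real.exp (∑ v ∈ mv c, (n : ℝ) * cosT (θ v - θ (c v))) := by
  unfold WR
  rw [cexp_apply, ContinuousMap.coe_sum, Finset.sum_apply]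
  rfl

/-- the normalization of the wiring -/
noncomputable def NW (n : ℕ) (c : V → V) : ℝ := NN n (mv c) (0 : V → T)

lemma NW_pos (n : ℕ) (c : V → V) : 0 < NW n c := NN_pos _ _ _

lemma WR_mul (n : ℕ) {c c1 c2 : V → V} (h1 : ∀ v ∈ mv c1, c v = c1 v)
    (h2 : ∀ v ∈ mv c2, c v = c2 v) (h : ∀ v, v ∈ mv c ↔ v ∈ mv c1 ∨ v ∈ mv c2)
    (hd : Disjoint (mv c1) (mv c2)) : WR n c = WR n c1 * WR n c2 := by
  classical
  have e : mv c = mv c1 ∪ mv c2 := by
    ext v
    rw [Finset.mem_union, h]
  ext θ
  rw [ContinuousMap.mul_apply, WR_apply, WR_apply, WR_apply, ← Real.exp_add, e,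
    Finset.sum_union hd]
  congr 2
  · exact Finset.sum_congr rfl fun v hv => by rw [h1 v hv]
  · exact Finset.sum_congr rfl fun v hv => by rw [h2 v hv]

lemma NW_mul (n : ℕ) {c c1 c2 : V → V} (h : ∀ v, v ∈ mv c ↔ v ∈ mv c1 ∨ v ∈ mv c2)
    (hd : Disjoint (mv c1) (mv c2)) : NW n c = NW n c1 * NW n c2 := by
  classical
  have e : mv c = mv c1 ∪ mv c2 := by
    ext v
    rw [Finset.mem_union, h]
  unfold NW
  rw [e, NN_union n hd]

/-- strong couplings wire -/
theorem wr_lim {c : V → V} (hc : ∀ v, c (c v) = c v) {f : (V → T) → ℝ} (hf : Continuous f) :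
    Tendsto (fun n => (NW n c)⁻¹ * ∫ θ, WR n c θ * f θ ∂(torusHaar V)) atTop
      (𝓝 (∫ θ, f (fun v => θ (c v)) ∂(torusHaar V))) := by
  classical
  set R : (V → T) →+ (V → T) :=
    { toFun := fun θ => fun v => if c v = v then θ v else θ v + θ (c v)
      map_zero' := by funext v; simp
      map_add' := by
        intro x y
        funext v
        by_cases h : c v = v
        · simp [h]
        · simp only [h, if_false, Pi.add_apply]
          abel } with hR
  have R1 : ∀ θ v, c v = v → R θ v = θ v := fun θ v h => by simp [hR, h]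
  have R2 : ∀ θ v, c v ≠ v → R θ v = θ v + θ (c v) := fun θ v h => by simp [hR, h]
  have Rc : Continuous R := by
    refine continuous_pi fun v => ?_
    by_cases h : c v = v
    · have : (fun θ : V → T => R θ v) = fun θ => θ v := by
        funext θ; exact R1 θ v h
      rw [this]; exact continuous_apply v
    · have : (fun θ : V → T => R θ v) = fun θ => θ v + θ (c v) := by
        funext θ; exact R2 θ v h
      rw [this]; exact (continuous_apply v).add (continuous_apply _)
  have Rmp : MeasurePreserving R (torusHaar V) (torusHaar V) := by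
    apply AddMonoidHom.measurePreserving
    · exact Rc
    · intro θ
      refine ⟨fun v => if c v = v then θ v else θ v - θ (c v), ?_⟩
      funext v
      by_cases h : c v = v
      · rw [R1 _ _ h]; simp [h]
      · rw [R2 _ _ h]; simp [h, hc v]
    · simp
  have h3 : ∀ n, ∫ θ, WR n c θ * f θ ∂(torusHaar V) =
      ∫ θ, PK n (mv c) 0 θ * f (R θ) ∂(torusHaar V) := by
    intro n
    have h2 := integral_map (μ := torusHaar V) Rmp.measurable.aemeasurable
      (f := fun θ => WR n c θ * f θ) ((WR n c).continuous.mul hf).aestronglyMeasurable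
    rw [Rmp.map_eq] at h2
    rw [h2]
    refine integral_congr_ae (Eventually.of_forall fun θ => ?_)
    show WR n c (R θ) * f (R θ) = PK n (mv c) 0 θ * f (R θ)
    congr 1
    rw [WR_apply, PK_apply, Finset.mul_sum]
    congr 1
    refine Finset.sum_congr rfl fun v hv => ?_
    have hv' : c v ≠ v := mem_mv.1 hv
    rw [R2 _ _ hv', R1 _ _ (hc v), add_sub_cancel_right, Pi.zero_apply, sub_zero]
  have h4 := peak (mv c) (0 : V → T) (Φ := fun θ => f (R θ)) (hf.comp Rc)
  have h5 : ∫ θ, f (R (pin (mv c : Set V) 0 θ)) ∂(torusHaar V) =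
      ∫ θ, f (fun v => θ (c v)) ∂(torusHaar V) := by
    refine integral_congr_ae (Eventually.of_forall fun θ => ?_)
    show f (R (pin (mv c : Set V) 0 θ)) = f (fun v => θ (c v))
    congr 1
    funext v
    by_cases h : c v = v
    · rw [R1 _ _ h, pin_notMem (by simpa [mem_mv] using h), h]
    · rw [R2 _ _ h, pin_mem (by simpa [mem_mv] using h), pin_notMem (by simp [mem_mv, hc v])]
      simp
  rw [← h5]
  refine h4.congr fun n => ?_
  rw [h3]
  rfl

/-! ### wiring one or two sets -/

open Classical in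
/-- wire the set `S` to the site `o` -/
noncomputable def ctr (S : Set V) (o : V) (v : V) : V := if v ∈ S then o else v

lemma ctr_mem {S : Set V} {o v : V} (h : v ∈ S) : ctr S o v = o := by simp [ctr, h]

lemma ctr_notMem {S : Set V} {o v : V} (h : v ∉ S) : ctr S o v = v := by simp [ctr, h]

lemma ctr_idem {S : Set V} {o : V} (ho : o ∈ S) (v : V) : ctr S o (ctr S o v) = ctr S o v := by
  by_cases h : v ∈ S
  · rw [ctr_mem h, ctr_mem ho]
  · rw [ctr_notMem h, ctr_notMem h]

/-- wire `S` to `o` and `S'` to `o'` -/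
noncomputable def ctr2 (S : Set V) (o : V) (S' : Set V) (o' : V) (v : V) : V :=
  ctr S o (ctr S' o' v)

lemma mem_mv_ctr {S : Set V} {o v : V} : v ∈ mv (ctr S o) ↔ v ∈ S ∧ v ≠ o := by
  rw [mem_mv]
  by_cases h : v ∈ S
  · rw [ctr_mem h]
    exact ⟨fun h1 => ⟨h, fun h2 => h1 h2.symm⟩, fun h1 h2 => h1.2 h2.symm⟩
  · rw [ctr_notMem h]
    exact ⟨fun h1 => absurd rfl h1, fun h1 => absurd h1.1 h⟩

section two

variable {S S' : Set V} {o o' : V}

lemma ctr2_left (hd : Disjoint S S') {v : V} (h : v ∈ S) : ctr2 S o S' o' v = o := by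
  have h' : v ∉ S' := fun h2 => Set.disjoint_left.1 hd h h2
  rw [ctr2, ctr_notMem h', ctr_mem h]

lemma ctr2_right (hd : Disjoint S S') (ho' : o' ∈ S') {v : V} (h : v ∈ S') :
    ctr2 S o S' o' v = o' := by
  have h' : o' ∉ S := fun h2 => Set.disjoint_left.1 hd h2 ho'
  rw [ctr2, ctr_mem h, ctr_notMem h']

lemma ctr2_off {v : V} (h : v ∉ S) (h' : v ∉ S') : ctr2 S o S' o' v = v := by
  rw [ctr2, ctr_notMem h', ctr_notMem h]

lemma ctr2_idem (hd : Disjoint S S') (ho : o ∈ S) (ho' : o' ∈ S') (v : V) :
    ctr2 S o S' o' (ctr2 S o S' o' v) = ctr2 S o S' o' v := by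
  by_cases h : v ∈ S
  · rw [ctr2_left hd h, ctr2_left hd ho]
  · by_cases h' : v ∈ S'
    · rw [ctr2_right hd ho' h', ctr2_right hd ho' ho']
    · rw [ctr2_off h h', ctr2_off h h']

lemma mem_mv_ctr2 (hd : Disjoint S S') (ho : o ∈ S) (ho' : o' ∈ S') (v : V) :
    v ∈ mv (ctr2 S o S' o') ↔ v ∈ mv (ctr S o) ∨ v ∈ mv (ctr S' o') := by
  rw [mem_mv, mem_mv_ctr, mem_mv_ctr]
  by_cases h : v ∈ S
  · have h' : v ∉ S' := fun h2 => Set.disjoint_left.1 hd h h2
    rw [ctr2_left hd h]
    constructor
    · intro h1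
      exact Or.inl ⟨h, fun h2 => h1 h2.symm⟩
    · rintro (h1 | h1) h2
      · exact h1.2 h2.symm
      · exact h' h1.1
  · by_cases h' : v ∈ S'
    · rw [ctr2_right hd ho' h']
      constructor
      · intro h1
        exact Or.inr ⟨h', fun h2 => h1 h2.symm⟩
      · rintro (h1 | h1) h2
        · exact h h1.1
        · exact h1.2 h2.symm
    · rw [ctr2_off h h']
      constructor
      · intro h1
        exact absurd rfl h1
      · rintro (h1 | h1)
        · exact absurd h1.1 h
        · exact absurd h1.1 h'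

lemma WR_two (hd : Disjoint S S') (ho : o ∈ S) (ho' : o' ∈ S') (n : ℕ) :
    WR n (ctr2 S o S' o') = WR n (ctr S o) * WR n (ctr S' o') := by
  refine WR_mul n (fun v hv => ?_) (fun v hv => ?_) (mem_mv_ctr2 hd ho ho') ?_
  · have h := (mem_mv_ctr.1 hv).1
    rw [ctr2_left hd h, ctr_mem h]
  · have h := (mem_mv_ctr.1 hv).1
    rw [ctr2_right hd ho' h, ctr_mem h]
  · rw [Finset.disjoint_left]
    intro v h1 h2
    exact Set.disjoint_left.1 hd (mem_mv_ctr.1 h1).1 (mem_mv_ctr.1 h2).1

lemma NW_two (hd : Disjoint S S') (ho : o ∈ S) (ho' : o' ∈ S') (n : ℕ) :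
    NW n (ctr2 S o S' o') = NW n (ctr S o) * NW n (ctr S' o') := by
  refine NW_mul n (mem_mv_ctr2 hd ho ho') ?_
  rw [Finset.disjoint_left]
  intro v h1 h2
  exact Set.disjoint_left.1 hd (mem_mv_ctr.1 h1).1 (mem_mv_ctr.1 h2).1

end two

/-- a wired set may be pinned at `0` -/
lemma int_ctr {f : (V → T) → ℝ} (hc : Continuous f) (hf : Inv f) {S : Set V} {o : V}
    (ho : o ∈ S) :
    ∫ θ, f (fun v => θ (ctr S o v)) ∂(torusHaar V) =
      ∫ θ, f (pin S 0 θ) ∂(torusHaar V) := by
  rw [int_inv hc hf (ctr S o) o]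
  refine integral_congr_ae (Eventually.of_forall fun θ => ?_)
  show f (fun v => pin {o} 0 θ (ctr S o v)) = f (pin S 0 θ)
  congr 1
  funext v
  by_cases h : v ∈ S
  · rw [ctr_mem h, pin_mem (by simp), pin_mem h]
    rfl
  · have h1 : v ≠ o := fun h2 => h (h2 ▸ ho)
    rw [ctr_notMem h, pin_notMem (by simpa using h1), pin_notMem h]

end Vale.Agent.P159.TM.H389
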